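import Mathlib

/-!
# P328: log-concave sequences (PF2) and window sums

`PF2 a` for a sequence `a : ℤ → ℝ`: `a` is nonnegative and `a (x - 1) * a (y + 1) ≤ a x * a y`
whenever `x ≤ y` (log-concave without internal zeros).  Window sums of a PF2 sequence are PF2,
and the tail inequality `PF2.tail_le` is the stochastic monotonicity of a coordinate of a
box-slice class in the total.
-/

namespace Vale.Agent.H23.CT

open Finset

/-- `PF2 a`: nonnegative, and `a (x - 1) * a (y + 1) ≤ a x * a y` for `x ≤ y`. -/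
def PF2 (a : ℤ → ℝ) : Prop :=
  (∀ x, 0 ≤ a x) ∧ ∀ x y : ℤ, x ≤ y → a (x - 1) * a (y + 1) ≤ a x * a y

/-- Auxiliary form of `PF2.spread`: moving two ordered arguments apart by `k` steps. -/
theorem lc_spread_aux {a : ℤ → ℝ} (h : PF2 a) (k : ℕ) :
    ∀ q q' : ℤ, q ≤ q' → a (q - (k : ℤ)) * a (q' + (k : ℤ)) ≤ a q * a q' := by
  induction k with
  | zero =>
    intro q q' _
    simp
  | succ k ih =>
    intro q q' hqq
    have h1 := h.2 (q - (k : ℤ)) (q' + (k : ℤ)) (by omega)
    have e1 : q - ((k + 1 : ℕ) : ℤ) = q - (k : ℤ) - 1 := by push_cast; ring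
    have e2 : q' + ((k + 1 : ℕ) : ℤ) = q' + (k : ℤ) + 1 := by push_cast; ring
    rw [e1, e2]
    exact le_trans h1 (ih q q' hqq)

/-- Spreading two arguments apart (with the same sum) decreases the product. -/
theorem PF2.spread {a : ℤ → ℝ} (h : PF2 a) {p p' q q' : ℤ} (hq : p ≤ q) (hq' : p ≤ q')
    (hsum : p + p' = q + q') : a p * a p' ≤ a q * a q' := by
  rcases le_total q q' with hqq | hqq
  · have h1 := lc_spread_aux h (q - p).toNat q q' hqq
    have e : ((q - p).toNat : ℤ) = q - p := Int.toNat_of_nonneg (by omega)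
    rw [e] at h1
    have e1 : q - (q - p) = p := by ring
    have e2 : q' + (q - p) = p' := by omega
    rw [e1, e2] at h1
    exact h1
  · have h1 := lc_spread_aux h (q' - p).toNat q' q hqq
    have e : ((q' - p).toNat : ℤ) = q' - p := Int.toNat_of_nonneg (by omega)
    rw [e] at h1
    have e1 : q' - (q' - p) = p := by ring
    have e2 : q + (q' - p) = p' := by omega
    rw [e1, e2] at h1
    rw [mul_comm (a q) (a q')]
    exact h1

/-- Window sums of a PF2 sequence are PF2. -/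
theorem PF2.window {a : ℤ → ℝ} (h : PF2 a) (s : ℕ) :
    PF2 (fun x => ∑ t ∈ range (s + 1), a (x - (t : ℤ))) := by
  refine ⟨fun x => Finset.sum_nonneg (fun t _ => h.1 _), ?_⟩
  intro i j hij
  show (∑ t ∈ range (s + 1), a (i - 1 - (t : ℤ))) * (∑ t ∈ range (s + 1), a (j + 1 - (t : ℤ)))
    ≤ (∑ t ∈ range (s + 1), a (i - (t : ℤ))) * (∑ t ∈ range (s + 1), a (j - (t : ℤ)))
  have hAi : ∑ t ∈ range (s + 1), a (i - (t : ℤ))
      = a i + ∑ t ∈ range s, a (i - 1 - (t : ℤ)) := by
    rw [Finset.sum_range_succ', add_comm]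
    congr 1
    · congr 1
      simp
    · refine Finset.sum_congr rfl (fun t _ => ?_)
      congr 1
      push_cast
      ring
  have hAj : ∑ t ∈ range (s + 1), a (j - (t : ℤ))
      = ∑ t ∈ range s, a (j - (t : ℤ)) + a (j - (s : ℤ)) := Finset.sum_range_succ _ _
  have hAi1 : ∑ t ∈ range (s + 1), a (i - 1 - (t : ℤ))
      = ∑ t ∈ range s, a (i - 1 - (t : ℤ)) + a (i - 1 - (s : ℤ)) := Finset.sum_range_succ _ _
  have hAj1 : ∑ t ∈ range (s + 1), a (j + 1 - (t : ℤ))
      = a (j + 1) + ∑ t ∈ range s, a (j - (t : ℤ)) := by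
    rw [Finset.sum_range_succ', add_comm]
    congr 1
    · congr 1
      simp
    · refine Finset.sum_congr rfl (fun t _ => ?_)
      congr 1
      push_cast
      ring
  rw [hAi, hAj, hAi1, hAj1]
  set P : ℝ := ∑ t ∈ range s, a (i - 1 - (t : ℤ)) with hP
  set Q : ℝ := ∑ t ∈ range s, a (j - (t : ℤ)) with hQ
  have h1 : a (i - 1 - (s : ℤ)) * a (j + 1) ≤ a i * a (j - (s : ℤ)) :=
    h.spread (by omega) (by omega) (by ring)
  have h2 : P * a (j + 1) ≤ a i * Q := by
    rw [hP, hQ, Finset.sum_mul, Finset.mul_sum]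
    refine Finset.sum_le_sum (fun t _ => ?_)
    exact h.spread (by omega) (by omega) (by ring)
  have h3 : a (i - 1 - (s : ℤ)) * Q ≤ P * a (j - (s : ℤ)) := by
    rw [hP, hQ, Finset.sum_mul, Finset.mul_sum]
    refine Finset.sum_le_sum (fun t ht => ?_)
    have hts : t < s := Finset.mem_range.1 ht
    exact h.spread (by omega) (by omega) (by ring)
  nlinarith [h1, h2, h3]

/-- The tail inequality: for `x ≤ y` the upper part of the window sum at `x` has a smaller
share than the upper part of the window sum at `y`. -/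
theorem PF2.tail_le {a : ℤ → ℝ} (h : PF2 a) (s u : ℕ) {x y : ℤ} (hxy : x ≤ y) :
    (∑ j ∈ (range (s + 1)).filter (fun j => u ≤ j), a (x - (j : ℤ)))
        * (∑ i ∈ range (s + 1), a (y - (i : ℤ)))
      ≤ (∑ j ∈ (range (s + 1)).filter (fun j => u ≤ j), a (y - (j : ℤ)))
        * (∑ i ∈ range (s + 1), a (x - (i : ℤ))) := by
  have hsplit : ∀ f : ℕ → ℝ, ∑ i ∈ range (s + 1), f i
      = ∑ i ∈ (range (s + 1)).filter (fun j => u ≤ j), f i
        + ∑ i ∈ (range (s + 1)).filter (fun j => ¬ u ≤ j), f i := fun f =>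
    (Finset.sum_filter_add_sum_filter_not (range (s + 1)) (fun j => u ≤ j) f).symm
  rw [hsplit (fun i => a (y - (i : ℤ))), hsplit (fun i => a (x - (i : ℤ)))]
  set XU : ℝ := ∑ j ∈ (range (s + 1)).filter (fun j => u ≤ j), a (x - (j : ℤ)) with hXU
  set YU : ℝ := ∑ j ∈ (range (s + 1)).filter (fun j => u ≤ j), a (y - (j : ℤ)) with hYU
  set XL : ℝ := ∑ i ∈ (range (s + 1)).filter (fun j => ¬ u ≤ j), a (x - (i : ℤ)) with hXL
  set YL : ℝ := ∑ i ∈ (range (s + 1)).filter (fun j => ¬ u ≤ j), a (y - (i : ℤ)) with hYL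
  have key : XU * YL ≤ YU * XL := by
    rw [hXU, hYL, hYU, hXL, Finset.sum_mul_sum, Finset.sum_mul_sum]
    refine Finset.sum_le_sum (fun j hj => Finset.sum_le_sum (fun i hi => ?_))
    have hj' : u ≤ j := (Finset.mem_filter.1 hj).2
    have hi' : ¬ u ≤ i := (Finset.mem_filter.1 hi).2
    exact h.spread (by omega) (by omega) (by ring)
  nlinarith [key]

/-- The indicator of `0` is PF2. -/
theorem pf2_delta : PF2 (fun x : ℤ => if x = 0 then (1 : ℝ) else 0) := by
  refine ⟨fun x => ?_, fun x y hxy => ?_⟩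
  · show (0 : ℝ) ≤ if x = 0 then (1 : ℝ) else 0
    split_ifs <;> norm_num
  · show (if x - 1 = 0 then (1 : ℝ) else 0) * (if y + 1 = 0 then (1 : ℝ) else 0)
      ≤ (if x = 0 then (1 : ℝ) else 0) * (if y = 0 then (1 : ℝ) else 0)
    have hr : (0 : ℝ) ≤ (if x = 0 then (1 : ℝ) else 0) * (if y = 0 then (1 : ℝ) else 0) := by
      apply mul_nonneg <;> split_ifs <;> norm_num
    by_cases hx : x - 1 = 0
    · have hy : ¬ (y + 1 = 0) := by omega
      rw [if_neg hy, mul_zero]
      exact hr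
    · rw [if_neg hx, zero_mul]
      exact hr

end Vale.Agent.H23.CT
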