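import Vale.Agent.H14.CT.BoxSlice
import Vale.Agent.H23.CT.BoxLC

/-!
# P328: the number of points of a box-slice class is a PF2 function of the total

`boxCount n s x` is the number of points of `Box n s x` for an integer `x ≥ 0` and `0` for
`x < 0`.  Slicing at a column gives the window-sum recursion `boxCount_succ`, hence
`boxCount n s` is PF2 (`boxCount_pf2`); `card_filter_le_eq` counts the points with
`u ≤ z a` by slicing at `a`.
-/

namespace Vale.Agent.H23.CT

open Finset Vale.Agent.H14.CT

/-- The number of points of `Box n s x` as a function of the integer `x` (zero for `x < 0`). -/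
noncomputable def boxCount (n : ℕ) (s : Fin n → ℕ) (x : ℤ) : ℝ :=
  if 0 ≤ x then (Fintype.card (Box n s x.toNat) : ℝ) else 0

theorem boxCount_natCast (n : ℕ) (s : Fin n → ℕ) (ρ : ℕ) :
    boxCount n s (ρ : ℤ) = (Fintype.card (Box n s ρ) : ℝ) := by
  unfold boxCount
  rw [if_pos (Int.natCast_nonneg ρ), Int.toNat_natCast]

/-- `boxCount` vanishes at negative integers. -/
theorem ctcount_boxCount_neg (n : ℕ) (s : Fin n → ℕ) {x : ℤ} (hx : x < 0) :
    boxCount n s x = 0 := by
  unfold boxCount
  rw [if_neg (not_le.2 hx)]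

/-- `boxCount` at a difference of two natural numbers. -/
theorem ctcount_boxCount_sub (n : ℕ) (s : Fin n → ℕ) (ρ t : ℕ) :
    boxCount n s ((ρ : ℤ) - (t : ℤ))
      = if t ≤ ρ then (Fintype.card (Box n s (ρ - t)) : ℝ) else 0 := by
  by_cases h : t ≤ ρ
  · rw [if_pos h, ← Nat.cast_sub h, boxCount_natCast]
  · rw [if_neg h]
    exact ctcount_boxCount_neg n s (by omega)

/-- A weighted window sum of `boxCount`: the terms beyond the total vanish. -/
theorem ctcount_sum_range (n : ℕ) (s' : Fin n → ℕ) (S ρ : ℕ) (c : ℕ → ℝ) :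
    ∑ j ∈ range (S + 1), c j * boxCount n s' ((ρ : ℤ) - (j : ℤ))
      = ∑ j ∈ range (min S ρ + 1), c j * (Fintype.card (Box n s' (ρ - j)) : ℝ) := by
  have hsub : range (min S ρ + 1) ⊆ range (S + 1) := by
    intro j hj
    rw [Finset.mem_range] at hj ⊢
    omega
  rw [← Finset.sum_subset hsub]
  · refine Finset.sum_congr rfl (fun j hj => ?_)
    rw [Finset.mem_range] at hj
    rw [ctcount_boxCount_sub, if_pos (by omega)]
  · intro j hj hj'
    rw [Finset.mem_range] at hj hj'
    rw [ctcount_boxCount_sub, if_neg (by omega), mul_zero]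

/-- A sum over the class of a function of the entry at `a`, by slicing at `a`. -/
theorem ctcount_sum_entry {n : ℕ} {s : Fin (n + 1) → ℕ} {ρ : ℕ} (a : Fin (n + 1))
    (c : ℕ → ℝ) :
    ∑ z : Box (n + 1) s ρ, c (z.1 a)
      = ∑ j ∈ range (min (s a) ρ + 1),
          c j * (Fintype.card (Box n (fun k => s (a.succAbove k)) (ρ - j)) : ℝ) := by
  rw [sum_slices a (fun z : Box (n + 1) s ρ => c (z.1 a))]
  refine Finset.sum_congr rfl (fun j hj => ?_)
  rw [Finset.mem_range] at hj
  have hj1 : j ≤ s a := by omega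
  have hj2 : j ≤ ρ := by omega
  have h : ∀ w ∈ (univ : Finset (Box n (fun k => s (a.succAbove k)) (ρ - j))),
      sliceFun a j (fun z : Box (n + 1) s ρ => c (z.1 a)) w = c j := by
    intro w _
    rw [sliceFun_eq a j hj1 hj2, insB_same]
  rw [Finset.sum_congr rfl h, Finset.sum_const, Finset.card_univ, nsmul_eq_mul, mul_comm]

/-- Slicing at the column `a`: the window-sum recursion. -/
theorem boxCount_succ (n : ℕ) (s : Fin (n + 1) → ℕ) (a : Fin (n + 1)) (x : ℤ) :
    boxCount (n + 1) s x
      = ∑ t ∈ range (s a + 1), boxCount n (fun k => s (a.succAbove k)) (x - (t : ℤ)) := by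
  rcases lt_or_ge x 0 with hx | hx
  · rw [ctcount_boxCount_neg _ _ hx]
    symm
    refine Finset.sum_eq_zero (fun t _ => ?_)
    exact ctcount_boxCount_neg _ _ (by omega)
  · obtain ⟨ρ, rfl⟩ := Int.eq_ofNat_of_zero_le hx
    rw [boxCount_natCast]
    have h1 : (Fintype.card (Box (n + 1) s ρ) : ℝ)
        = ∑ z : Box (n + 1) s ρ, (fun _ : ℕ => (1 : ℝ)) (z.1 a) := by
      rw [Finset.sum_const, Finset.card_univ, nsmul_eq_mul, mul_one]
    rw [h1, ctcount_sum_entry a (fun _ : ℕ => (1 : ℝ)),
      ← ctcount_sum_range n (fun k => s (a.succAbove k)) (s a) ρ (fun _ : ℕ => (1 : ℝ))]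
    refine Finset.sum_congr rfl (fun t _ => ?_)
    rw [one_mul]

/-- With no columns the class has one point if the total is zero and is empty otherwise. -/
theorem ctcount_boxCount_zero (s : Fin 0 → ℕ) :
    boxCount 0 s = fun x : ℤ => if x = 0 then (1 : ℝ) else 0 := by
  funext x
  rcases lt_or_ge x 0 with hx | hx
  · rw [ctcount_boxCount_neg _ _ hx, if_neg (by omega)]
  · obtain ⟨ρ, rfl⟩ := Int.eq_ofNat_of_zero_le hx
    rw [boxCount_natCast]
    by_cases hρ : ρ = 0
    · subst hρ
      have hc : Fintype.card (Box 0 s 0) = 1 := by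
        rw [Fintype.card_eq_one_iff]
        refine ⟨⟨fun k => k.elim0, fun k => k.elim0, ?_⟩, fun z => ?_⟩
        · exact Fin.sum_univ_zero _
        · apply Subtype.ext
          funext k
          exact k.elim0
      rw [hc, Nat.cast_one, if_pos (by rfl)]
    · have hc : Fintype.card (Box 0 s ρ) = 0 := by
        rw [Fintype.card_eq_zero_iff]
        refine ⟨fun z => ?_⟩
        have h : ∑ k : Fin 0, z.1 k = ρ := z.2.2
        rw [Fin.sum_univ_zero] at h
        exact hρ h.symm
      rw [hc, Nat.cast_zero, if_neg (by omega)]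

/-- The number of points of a box-slice class is a PF2 function of the total. -/
theorem boxCount_pf2 (n : ℕ) (s : Fin n → ℕ) : PF2 (boxCount n s) := by
  induction n with
  | zero =>
    rw [ctcount_boxCount_zero]
    exact pf2_delta
  | succ n ih =>
    have h : boxCount (n + 1) s
        = fun x : ℤ => ∑ t ∈ range (s 0 + 1),
            boxCount n (fun k => s ((0 : Fin (n + 1)).succAbove k)) (x - (t : ℤ)) := by
      funext x
      exact boxCount_succ n s 0 x
    rw [h]
    exact PF2.window (ih _) (s 0)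

/-- The number of points with `u ≤ z a`, by slicing at `a`. -/
theorem card_filter_le_eq (n : ℕ) (s : Fin (n + 1) → ℕ) (ρ : ℕ) (a : Fin (n + 1)) (u : ℕ) :
    ((univ.filter (fun z : Box (n + 1) s ρ => u ≤ z.1 a)).card : ℝ)
      = ∑ j ∈ (range (s a + 1)).filter (fun j => u ≤ j),
          boxCount n (fun k => s (a.succAbove k)) ((ρ : ℤ) - (j : ℤ)) := by
  have h1 : ((univ.filter (fun z : Box (n + 1) s ρ => u ≤ z.1 a)).card : ℝ)
      = ∑ z : Box (n + 1) s ρ, (fun j : ℕ => if u ≤ j then (1 : ℝ) else 0) (z.1 a) := by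
    rw [Finset.card_filter]
    push_cast
    rfl
  rw [h1, ctcount_sum_entry a (fun j : ℕ => if u ≤ j then (1 : ℝ) else 0),
    ← ctcount_sum_range n (fun k => s (a.succAbove k)) (s a) ρ
      (fun j : ℕ => if u ≤ j then (1 : ℝ) else 0),
    Finset.sum_filter]
  refine Finset.sum_congr rfl (fun j _ => ?_)
  by_cases hu : u ≤ j
  · rw [if_pos hu, if_pos hu, one_mul]
  · rw [if_neg hu, if_neg hu, zero_mul]

end Vale.Agent.H23.CT
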