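import Vale.Agent.H23.CT.BoxCount

/-!
# P328: stochastic monotonicity in box-slice classes (Efron's monotonicity)

`box_tail_mono`: in `Box n s ρ` the law of a coordinate `z a` is stochastically nondecreasing
in the total `ρ`.  `box_stochDecreasing`: in `Box n s ρ`, for two different columns `k`, `l`,
the law of `z l` given `z k = t` is stochastically nonincreasing in `t` (both in
cross-multiplied form, as inequalities between natural numbers).
-/

namespace Vale.Agent.H23.CT

open Finset Vale.Agent.H14.CT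

/-- The law of the coordinate `z a` is stochastically nondecreasing in the total. -/
theorem box_tail_mono (n : ℕ) (s : Fin n → ℕ) (a : Fin n) (u : ℕ) {ρ₁ ρ₂ : ℕ} (h : ρ₁ ≤ ρ₂) :
    (univ.filter (fun z : Box n s ρ₁ => u ≤ z.1 a)).card * Fintype.card (Box n s ρ₂)
      ≤ (univ.filter (fun z : Box n s ρ₂ => u ≤ z.1 a)).card * Fintype.card (Box n s ρ₁) := by
  cases n with
  | zero => exact a.elim0
  | succ m =>
    have hpf := boxCount_pf2 m (fun k => s (a.succAbove k))
    have hle : (ρ₁ : ℤ) ≤ (ρ₂ : ℤ) := by exact_mod_cast h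
    have ht := PF2.tail_le hpf (s a) u hle
    rw [← card_filter_le_eq m s ρ₁ a u, ← card_filter_le_eq m s ρ₂ a u,
      ← boxCount_succ m s a (ρ₂ : ℤ), ← boxCount_succ m s a (ρ₁ : ℤ),
      boxCount_natCast, boxCount_natCast] at ht
    exact_mod_cast ht

/-- Every entry of a point of a box-slice class is at most the total. -/
theorem stoch_entry_le_total {n : ℕ} {s : Fin n → ℕ} {ρ : ℕ} (z : Box n s ρ) (k : Fin n) :
    z.1 k ≤ ρ := by
  have h : ∑ i, z.1 i = ρ := z.2.2
  have h2 : z.1 k ≤ ∑ i, z.1 i :=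
    Finset.single_le_sum (f := fun i => z.1 i) (fun i _ => Nat.zero_le _) (Finset.mem_univ k)
  omega

/-- Counting inside the slice `{z k = j}`. -/
theorem stoch_slice_card {m : ℕ} {s : Fin (m + 1) → ℕ} {ρ : ℕ} (k : Fin (m + 1)) (j : ℕ)
    (hj : j ≤ s k) (hρ : j ≤ ρ) (p : Box (m + 1) s ρ → Prop) [DecidablePred p] :
    (univ.filter (fun z : Box (m + 1) s ρ => z.1 k = j ∧ p z)).card
      = (univ.filter (fun w : Box m (fun i => s (k.succAbove i)) (ρ - j) =>
          p (insB k j hj hρ w))).card := by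
  rw [← Finset.card_image_of_injective _ (insB_inj k j hj hρ)]
  congr 1
  ext z
  simp only [Finset.mem_filter, Finset.mem_univ, true_and, Finset.mem_image]
  constructor
  · rintro ⟨hz, hp⟩
    obtain ⟨w, rfl⟩ := exists_insB k j hj hρ z hz
    exact ⟨w, hp, rfl⟩
  · rintro ⟨w, hp, rfl⟩
    exact ⟨insB_same k j hj hρ w, hp⟩

/-- The number of points of the slice `{z k = j}`. -/
theorem stoch_slice_card0 {m : ℕ} {s : Fin (m + 1) → ℕ} {ρ : ℕ} (k : Fin (m + 1)) (j : ℕ)
    (hj : j ≤ s k) (hρ : j ≤ ρ) :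
    (univ.filter (fun z : Box (m + 1) s ρ => z.1 k = j)).card
      = Fintype.card (Box m (fun i => s (k.succAbove i)) (ρ - j)) := by
  rw [← Finset.card_univ, ← Finset.card_image_of_injective _ (insB_inj k j hj hρ)]
  congr 1
  ext z
  simp only [Finset.mem_filter, Finset.mem_univ, true_and, Finset.mem_image]
  constructor
  · intro hz
    exact exists_insB k j hj hρ z hz
  · rintro ⟨w, rfl⟩
    exact insB_same k j hj hρ w

/-- Given `z k = t`, the law of another coordinate `z l` is stochastically nonincreasing in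
`t`. -/
theorem box_stochDecreasing (n : ℕ) (s : Fin n → ℕ) (ρ : ℕ) (k l : Fin n) (hkl : k ≠ l)
    (t t' u : ℕ) (htt : t < t') :
    (univ.filter (fun z : Box n s ρ => z.1 k = t' ∧ u ≤ z.1 l)).card
        * (univ.filter (fun z : Box n s ρ => z.1 k = t)).card
      ≤ (univ.filter (fun z : Box n s ρ => z.1 k = t ∧ u ≤ z.1 l)).card
        * (univ.filter (fun z : Box n s ρ => z.1 k = t')).card := by
  cases n with
  | zero => exact k.elim0
  | succ m =>
    by_cases hc : t' ≤ s k ∧ t' ≤ ρ
    · obtain ⟨h1, h2⟩ := hc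
      obtain ⟨l', rfl⟩ := Fin.exists_succAbove_eq hkl.symm
      have ht1 : t ≤ s k := by omega
      have ht2 : t ≤ ρ := by omega
      have e1 := stoch_slice_card k t' h1 h2 (fun z : Box (m + 1) s ρ => u ≤ z.1 (k.succAbove l'))
      have e2 := stoch_slice_card k t ht1 ht2 (fun z : Box (m + 1) s ρ => u ≤ z.1 (k.succAbove l'))
      simp only [insB_succAbove] at e1 e2
      rw [e1, e2, stoch_slice_card0 k t ht1 ht2, stoch_slice_card0 k t' h1 h2]
      exact box_tail_mono m (fun i => s (k.succAbove i)) l' u (by omega)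
    · have hz : (univ.filter (fun z : Box (m + 1) s ρ => z.1 k = t' ∧ u ≤ z.1 l)).card = 0 := by
        rw [Finset.card_eq_zero, Finset.filter_eq_empty_iff]
        intro z _ hz
        apply hc
        rw [← hz.1]
        exact ⟨z.2.1 k, stoch_entry_le_total z k⟩
      rw [hz, Nat.zero_mul]
      exact Nat.zero_le _

end Vale.Agent.H23.CT
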