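import Vale.Agent.H23.CT.ConeMono
import Vale.Agent.H23.CT.BoxStoch

/-!
# P328: the sharp two-row theorem on box-slice classes

On every box-slice class `Box n s ρ` (first rows of two-rowed contingency tables with column
sums `s` and first row sum `ρ`), with `E_c` the conditional expectation given the entry `z c`
and `E` the mean:  `∑ c, E_c ≤ 2 I + (n - 2) E`, equivalently
`(n - 2) Var f ≤ ∑ c, E Var(f | z c)`, equivalently
`Var (∑ c, φ c (z c)) ≤ 2 ∑ c, Var (φ c (z c))`.
-/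

namespace Vale.Agent.H23.CT

open Finset Vale.Agent.H90 Vale.Agent.H14.CT

/-- The two-row theorem, operator form. -/
theorem box_sum_avgRel_le (n : ℕ) (s : Fin n → ℕ) (ρ : ℕ) (f : Box n s ρ → ℝ) :
    ∑ c : Fin n, ∑ z, avgRel (fun z w : Box n s ρ => z.1 c = w.1 c) f z ^ 2
      ≤ 2 * ∑ z, f z ^ 2
        + ((n : ℝ) - 2) * ((∑ z, f z) ^ 2 / (Fintype.card (Box n s ρ) : ℝ)) := by
  have h := sum_avgRel_le_of_stochDecreasing (Ω := Box n s ρ) (ι := Fin n)
    (fun k z => z.1 k) (fun k l hkl t t' u htt => box_stochDecreasing n s ρ k l hkl t t' u htt) f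
  simp only [dot, Fintype.card_fin, ← sq] at h
  exact h

/-- The two-row theorem, Poincare form. -/
theorem box_gap (n : ℕ) (s : Fin n → ℕ) (ρ : ℕ) (f : Box n s ρ → ℝ) :
    ((n : ℝ) - 2) * ∑ z, (f z - (∑ w, f w) / (Fintype.card (Box n s ρ) : ℝ)) ^ 2
      ≤ ∑ c : Fin n, ∑ z, (f z - avgRel (fun z w : Box n s ρ => z.1 c = w.1 c) f z) ^ 2 := by
  have h := gap_of_stochDecreasing (Ω := Box n s ρ) (ι := Fin n)
    (fun k z => z.1 k) (fun k l hkl t t' u htt => box_stochDecreasing n s ρ k l hkl t t' u htt) f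
  simp only [Fintype.card_fin] at h
  exact h

/-- The two-row theorem, variance form: for arbitrary functions `φ c` of the single entries,
`Var (∑ c, φ c (z c)) ≤ 2 ∑ c, Var (φ c (z c))` (sums over the class, not normalised). -/
theorem box_var_sum_le (n : ℕ) (s : Fin n → ℕ) (ρ : ℕ) (φ : Fin n → ℕ → ℝ) :
    ∑ z : Box n s ρ, (∑ c, φ c (z.1 c)
        - (∑ w : Box n s ρ, ∑ c, φ c (w.1 c)) / (Fintype.card (Box n s ρ) : ℝ)) ^ 2
      ≤ 2 * ∑ c, ∑ z : Box n s ρ, (φ c (z.1 c)
        - (∑ w : Box n s ρ, φ c (w.1 c)) / (Fintype.card (Box n s ρ) : ℝ)) ^ 2 := by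
  have h := gram_le_two_of_stochDecreasing (Ω := Box n s ρ) (ι := Fin n)
    (fun k z => z.1 k) (fun k l hkl t t' u htt => box_stochDecreasing n s ρ k l hkl t t' u htt)
    (fun c z => φ c (z.1 c))
  have hc : ∀ c : Fin n, cavg (fun a b : Box n s ρ => a.1 c = b.1 c) (fun z => φ c (z.1 c))
      = fun z => φ c (z.1 c) - (∑ w : Box n s ρ, φ c (w.1 c)) / (Fintype.card (Box n s ρ) : ℝ) := by
    intro c
    unfold cavg
    rw [avgRel_eq_self (sameCoord_equiv (fun (k : Fin n) (z : Box n s ρ) => z.1 k) c) _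
      (fun x y hxy => by simp only [show x.1 c = y.1 c from hxy])]
    funext z
    simp only [Pi.sub_apply, avgAll, avgRel, Finset.filter_true, Finset.card_univ]
  simp only [hc] at h
  unfold dot at h
  have e1 : ∀ z : Box n s ρ, (∑ c, φ c (z.1 c)
      - (∑ w : Box n s ρ, ∑ c, φ c (w.1 c)) / (Fintype.card (Box n s ρ) : ℝ))
      = (∑ c : Fin n, fun z : Box n s ρ => φ c (z.1 c)
          - (∑ w : Box n s ρ, φ c (w.1 c)) / (Fintype.card (Box n s ρ) : ℝ)) z := by
    intro z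
    rw [Finset.sum_apply, Finset.sum_sub_distrib, Finset.sum_comm, Finset.sum_div]
  simp only [e1, sq]
  exact h

end Vale.Agent.H23.CT
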