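import Vale.Agent.H23.CT.BoxGap

/-!
# P328: the pair-resampling generator of a box-slice class has gap one

On every box-slice class `Box n s ρ` with `n ≥ 2` columns the sum over the unordered pairs of
columns of the block Dirichlet forms is at least the variance:
`2 ∑ z, (f z - mean f)² ≤ ∑ a ≠ b, QB a b f` (ordered pairs).  This is the sharp gap of the
generator `∑_{a < b} (I - E_ab)` of the chain that resamples a pair of entries; it follows from
the two-row theorem `box_gap` by induction on the number of columns (the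
Carlen-Carvalho-Loss recursion): conditionally on one entry the class is a class with one
column less.
-/

namespace Vale.Agent.H23.CT

open Finset Vale.Agent.H90 Vale.Agent.H14.CT

variable {n : ℕ}

/-- The mean conditional variance given the entry `z a` is the sum of the variances of the
slices. -/
theorem sum_sub_avgRel_slices {s : Fin (n + 1) → ℕ} {ρ : ℕ} (a : Fin (n + 1))
    (f : Box (n + 1) s ρ → ℝ) :
    ∑ z, (f z - avgRel (fun z w : Box (n + 1) s ρ => z.1 a = w.1 a) f z) ^ 2
      = ∑ j ∈ range (min (s a) ρ + 1), ∑ w : Box n (fun k => s (a.succAbove k)) (ρ - j),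
          (sliceFun a j f w - (∑ w', sliceFun a j f w')
            / (Fintype.card (Box n (fun k => s (a.succAbove k)) (ρ - j)) : ℝ)) ^ 2 := by
  rw [sum_slices a
    (fun z => (f z - avgRel (fun z w : Box (n + 1) s ρ => z.1 a = w.1 a) f z) ^ 2)]
  refine Finset.sum_congr rfl fun j hj => ?_
  rw [Finset.mem_range] at hj
  have hj1 : j ≤ s a := by omega
  have hj2 : j ≤ ρ := by omega
  refine Finset.sum_congr rfl fun w _ => ?_
  rw [sliceFun_eq a j hj1 hj2, sliceFun_eq a j hj1 hj2]
  have e := Vale.Agent.H91.CT.TransferAux.avgRel_embed (insB a j hj1 hj2) (insB_inj a j hj1 hj2)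
    (fun z w : Box (n + 1) s ρ => z.1 a = w.1 a) (fun _ _ => True)
    (fun w w' => ⟨fun _ => by rw [insB_same, insB_same], fun _ => trivial⟩)
    (fun w z hz => exists_insB a j hj1 hj2 z (by rw [← hz, insB_same])) f w
  rw [e]
  have e2 : (fun w' => f (insB a j hj1 hj2 w')) = sliceFun a j f := by
    funext w'
    rw [sliceFun_eq a j hj1 hj2]
  rw [e2]
  simp only [avgRel, Finset.filter_true, Finset.card_univ]

/-- Double counting: every ordered pair of distinct elements of `Fin (n + 1)` avoids exactly
`n - 1` elements. -/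
theorem sum_succAbove_pairs (G : Fin (n + 1) → Fin (n + 1) → ℝ) :
    ∑ c : Fin (n + 1), ∑ a : Fin n, ∑ b : Fin n,
        (if a ≠ b then G (c.succAbove a) (c.succAbove b) else 0)
      = ((n : ℝ) - 1) * ∑ a : Fin (n + 1), ∑ b : Fin (n + 1), if a ≠ b then G a b else 0 := by
  classical
  have h1 : ∀ c : Fin (n + 1), ∑ a : Fin n, ∑ b : Fin n,
        (if a ≠ b then G (c.succAbove a) (c.succAbove b) else 0)
      = ∑ a : Fin (n + 1), ∑ b : Fin (n + 1),
          if a ≠ b ∧ a ≠ c ∧ b ≠ c then G a b else 0 := by
    intro c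
    rw [Fin.sum_univ_succAbove _ c]
    have hz : ∑ b : Fin (n + 1), (if c ≠ b ∧ c ≠ c ∧ b ≠ c then G c b else 0) = 0 :=
      Finset.sum_eq_zero fun b _ => by simp
    rw [hz, zero_add]
    refine Finset.sum_congr rfl fun a _ => ?_
    rw [Fin.sum_univ_succAbove _ c]
    have hz2 : (if c.succAbove a ≠ c ∧ c.succAbove a ≠ c ∧ c ≠ c then G (c.succAbove a) c
        else 0) = 0 := by simp
    rw [hz2, zero_add]
    refine Finset.sum_congr rfl fun b _ => ?_
    have e1 : c.succAbove a ≠ c := Fin.succAbove_ne c a
    have e2 : c.succAbove b ≠ c := Fin.succAbove_ne c b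
    have e3 : c.succAbove a ≠ c.succAbove b ↔ a ≠ b :=
      not_congr (Fin.succAbove_right_injective.eq_iff)
    simp only [e1, e2, e3, ne_eq, not_false_eq_true, and_true]
  rw [Finset.sum_congr rfl (fun c _ => h1 c), Finset.sum_comm, Finset.mul_sum]
  refine Finset.sum_congr rfl fun a _ => ?_
  rw [Finset.sum_comm, Finset.mul_sum]
  refine Finset.sum_congr rfl fun b _ => ?_
  by_cases hab : a = b
  · simp [hab]
  · have hset : (univ.filter (fun c : Fin (n + 1) => a ≠ c ∧ b ≠ c)) = (univ.erase a).erase b := by
      ext c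
      simp only [Finset.mem_filter, Finset.mem_univ, true_and, Finset.mem_erase, ne_eq, and_true]
      constructor
      · rintro ⟨h1, h2⟩
        exact ⟨fun h => h2 h.symm, fun h => h1 h.symm⟩
      · rintro ⟨h1, h2⟩
        exact ⟨fun h => h2 h.symm, fun h => h1 h.symm⟩
    have hcard : ((univ.filter (fun c : Fin (n + 1) => a ≠ c ∧ b ≠ c)).card : ℝ) = (n : ℝ) - 1 := by
      rw [hset, Finset.card_erase_of_mem (by simp [Ne.symm hab]),
        Finset.card_erase_of_mem (Finset.mem_univ a), Finset.card_univ, Fintype.card_fin]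
      have hn : 1 ≤ n := by
        by_contra hcon
        have h0 : n = 0 := by omega
        subst h0
        exact hab (Fin.ext (by have := a.2; have := b.2; omega))
      rw [Nat.cast_sub (by omega)]
      push_cast
      ring
    simp only [hab, ne_eq, not_false_eq_true, true_and, if_true]
    rw [← Finset.sum_filter, Finset.sum_const, nsmul_eq_mul, hcard]

/-- The pair-resampling generator of a box-slice class has gap one. -/
theorem box_pair_gap : ∀ (n : ℕ), 2 ≤ n → ∀ (s : Fin n → ℕ) (ρ : ℕ) (f : Box n s ρ → ℝ),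
    2 * ∑ z, (f z - (∑ w, f w) / (Fintype.card (Box n s ρ) : ℝ)) ^ 2
      ≤ ∑ a : Fin n, ∑ b : Fin n, if a ≠ b then QB a b f else 0 := by
  intro n hn
  induction n, hn using Nat.le_induction with
  | base =>
    intro s ρ f
    have hq : ∀ a b : Fin 2, a ≠ b →
        QB a b f = ∑ z, (f z - (∑ w, f w) / (Fintype.card (Box 2 s ρ) : ℝ)) ^ 2 := by
      intro a b hab
      unfold QB
      refine Finset.sum_congr rfl fun z _ => ?_
      have h1 : avgRel (LineRel a b) f = avgRel (fun _ _ : Box 2 s ρ => True) f := by
        apply avgRel_congr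
        intro x y
        refine ⟨fun _ => trivial, fun _ k hka hkb => ?_⟩
        exfalso
        fin_cases a <;> fin_cases b <;> fin_cases k <;> simp_all
      rw [h1]
      simp only [avgRel, Finset.filter_true, Finset.card_univ]
    rw [Fin.sum_univ_two, Fin.sum_univ_two, Fin.sum_univ_two]
    simp only [ne_eq, not_true_eq_false, if_false, zero_add, add_zero]
    rw [if_pos (by decide), if_pos (by decide), hq 0 1 (by decide), hq 1 0 (by decide)]
    linarith
  | succ n hn ih =>
    intro s ρ f
    have hcount := sum_succAbove_pairs (fun a b : Fin (n + 1) => QB a b f)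
    have hslice : ∀ c : Fin (n + 1),
        2 * ∑ z, (f z - avgRel (fun z w : Box (n + 1) s ρ => z.1 c = w.1 c) f z) ^ 2
          ≤ ∑ a : Fin n, ∑ b : Fin n,
              (if a ≠ b then QB (c.succAbove a) (c.succAbove b) f else 0) := by
      intro c
      have e1 : ∑ a : Fin n, ∑ b : Fin n,
            (if a ≠ b then QB (c.succAbove a) (c.succAbove b) f else 0)
          = ∑ j ∈ range (min (s c) ρ + 1), ∑ a : Fin n, ∑ b : Fin n,
              (if a ≠ b then QB a b (sliceFun c j f) else 0) := by
        have t : ∀ a b : Fin n, (if a ≠ b then QB (c.succAbove a) (c.succAbove b) f else 0)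
            = ∑ j ∈ range (min (s c) ρ + 1),
                (if a ≠ b then QB a b (sliceFun c j f) else 0) := by
          intro a b
          by_cases hab : a = b
          · simp [hab]
          · simp only [hab, ne_eq, not_false_eq_true, if_true]
            exact QB_slices c a b f
        simp only [t]
        rw [Finset.sum_congr rfl (fun a _ => Finset.sum_comm), Finset.sum_comm]
      rw [e1, sum_sub_avgRel_slices c f, Finset.mul_sum]
      exact Finset.sum_le_sum fun j _ => ih _ _ _
    have hsum : 2 * ∑ c : Fin (n + 1),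
          ∑ z, (f z - avgRel (fun z w : Box (n + 1) s ρ => z.1 c = w.1 c) f z) ^ 2
        ≤ ((n : ℝ) - 1) * ∑ a : Fin (n + 1), ∑ b : Fin (n + 1),
            if a ≠ b then QB a b f else 0 := by
      rw [← hcount, Finset.mul_sum]
      exact Finset.sum_le_sum fun c _ => hslice c
    have hgap := box_gap (n + 1) s ρ f
    have hn1 : (0 : ℝ) < (n : ℝ) - 1 := by
      have : (2 : ℝ) ≤ (n : ℝ) := by exact_mod_cast hn
      linarith
    have h3 : ((n + 1 : ℕ) : ℝ) - 2 = (n : ℝ) - 1 := by push_cast; ring
    rw [h3] at hgap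
    have h4 : ((n : ℝ) - 1) * (2 * ∑ z, (f z - (∑ w, f w)
          / (Fintype.card (Box (n + 1) s ρ) : ℝ)) ^ 2)
        ≤ ((n : ℝ) - 1) * ∑ a : Fin (n + 1), ∑ b : Fin (n + 1),
            if a ≠ b then QB a b f else 0 := by
      calc ((n : ℝ) - 1) * (2 * ∑ z, (f z - (∑ w, f w)
            / (Fintype.card (Box (n + 1) s ρ) : ℝ)) ^ 2)
          = 2 * (((n : ℝ) - 1) * ∑ z, (f z - (∑ w, f w)
            / (Fintype.card (Box (n + 1) s ρ) : ℝ)) ^ 2) := by ring
        _ ≤ 2 * ∑ c : Fin (n + 1),
            ∑ z, (f z - avgRel (fun z w : Box (n + 1) s ρ => z.1 c = w.1 c) f z) ^ 2 := by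
          linarith
        _ ≤ _ := hsum
    exact le_of_mul_le_mul_left h4 hn1

end Vale.Agent.H23.CT
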