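import Mathlib

/-!
# P328: the cone lemma (finite-dimensional Krein-Rutman argument by hand)

`cone_lemma`: let `O` be a symmetric operator on a finite-dimensional real inner product space
with `O ≥ -1`, and let `K` be a closed cone (closed under multiplication by nonnegative reals;
convexity is not needed) which spans the space (`K - K` is everything) and is reversed by `O`
(`O K ⊆ -K`).  If `⟪O x, x⟫ ≤ ⟪x, x⟫` on `K ∩ -K` (in particular if `K` is pointed), then
`O ≤ 1`.

Proof: take an orthonormal eigenbasis.  If the largest eigenvalue `lam` were `> 1`, then for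
`x ∈ K` the vectors `(-O / lam) ^ j x` stay in `K`; the even ones converge to the component `P x`
of `x` in the `lam`-eigenspace and the odd ones to `-P x`, so `P x ∈ K ∩ -K`, hence
`lam ‖P x‖² ≤ ‖P x‖²` and `P x = 0`.  As `K` spans, `P = 0`: a contradiction.
-/

namespace Vale.Agent.H23.CT

open Finset Filter Topology

section ConeLemma

variable {H : Type*} [NormedAddCommGroup H] [InnerProductSpace ℝ H] [FiniteDimensional ℝ H]

/-- The cone lemma. -/
theorem cone_lemma (O : H →ₗ[ℝ] H) (hsym : O.IsSymmetric)
    (hlow : ∀ x, -inner ℝ x x ≤ inner ℝ (O x) x)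
    (K : Set H) (hcl : IsClosed K)
    (hsmul : ∀ c : ℝ, 0 ≤ c → ∀ x ∈ K, c • x ∈ K)
    (hspan : ∀ x, ∃ y ∈ K, ∃ z ∈ K, x = y - z)
    (hrev : ∀ x ∈ K, -(O x) ∈ K)
    (hpt : ∀ x ∈ K, -x ∈ K → inner ℝ (O x) x ≤ inner ℝ x x) :
    ∀ x, inner ℝ (O x) x ≤ inner ℝ x x := by
  classical
  obtain ⟨n, hn⟩ : ∃ n, Module.finrank ℝ H = n := ⟨_, rfl⟩
  set b := hsym.eigenvectorBasis hn with hbdef
  set μ := hsym.eigenvalues hn with hμdef
  have hb : ∀ i, O (b i) = μ i • b i := fun i => by
    have h := hsym.apply_eigenvectorBasis hn i
    simp only [RCLike.ofReal_real_eq_id, id_eq] at h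
    exact h
  have hbb : ∀ i, inner ℝ (b i) (b i) = 1 := fun i => by
    rw [real_inner_self_eq_norm_sq, b.orthonormal.1 i]; norm_num
  have hμlow : ∀ i, -1 ≤ μ i := fun i => by
    have h := hlow (b i)
    rw [hb i, inner_smul_left, hbb i] at h
    simpa using h
  -- expansion of a vector and of its image
  have hexp : ∀ x : H, ∑ i, inner ℝ (b i) x • b i = x := fun x => by
    have := b.sum_repr x
    simpa [b.repr_apply_apply] using this
  have hO : ∀ d : Fin n → ℝ, O (∑ i, d i • b i) = ∑ i, (d i * μ i) • b i := fun d => by
    rw [map_sum]
    refine Finset.sum_congr rfl fun i _ => ?_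
    rw [map_smul, hb i, smul_smul]
  -- all eigenvalues are at most one
  have hμup : ∀ i, μ i ≤ 1 := by
    by_contra hcon
    push Not at hcon
    obtain ⟨i1, hi1⟩ := hcon
    obtain ⟨i0, -, hi0⟩ := Finset.exists_max_image (univ : Finset (Fin n)) μ ⟨i1, mem_univ i1⟩
    set lam := μ i0 with hlamdef
    have hlam : 1 < lam := lt_of_lt_of_le hi1 (hi0 i1 (mem_univ i1))
    have hlam0 : 0 < lam := by linarith
    have hle : ∀ i, μ i ≤ lam := fun i => hi0 i (mem_univ i)
    -- the key claim: the `lam`-component of every vector of `K` vanishes
    have key : ∀ x ∈ K, inner ℝ (b i0) x = 0 := by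
      intro x hx
      set c : Fin n → ℝ := fun i => inner ℝ (b i) x with hc
      set r : Fin n → ℝ := fun i => -μ i / lam with hr
      set W : ℕ → H := fun j => ∑ i, (r i ^ j * c i) • b i with hW
      have hW0 : W 0 = x := by
        simp only [hW, pow_zero, one_mul]
        exact hexp x
      have hWstep : ∀ j, W (j + 1) = lam⁻¹ • (-(O (W j))) := by
        intro j
        simp only [hW]
        rw [hO, ← Finset.sum_neg_distrib, Finset.smul_sum]
        refine Finset.sum_congr rfl fun i _ => ?_
        rw [← neg_smul, smul_smul]
        congr 1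
        have hri : r i = -μ i / lam := rfl
        rw [pow_succ, hri]
        field_simp
      have hWK : ∀ j, W j ∈ K := by
        intro j
        induction j with
        | zero => rw [hW0]; exact hx
        | succ j ih =>
          rw [hWstep]
          exact hsmul _ (inv_nonneg.2 hlam0.le) _ (hrev _ ih)
      set d : Fin n → ℝ := fun i => if μ i = lam then c i else 0 with hd
      set Px : H := ∑ i, d i • b i with hPx
      have hr2 : ∀ i, μ i ≠ lam → r i ^ 2 < 1 := by
        intro i hi
        have h1 : μ i < lam := lt_of_le_of_ne (hle i) hi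
        have h2 := hμlow i
        have h3 : -1 < r i := by
          simp only [hr]
          rw [lt_div_iff₀ hlam0]
          linarith
        have h4 : r i < 1 := by
          simp only [hr]
          rw [div_lt_one hlam0]
          linarith
        nlinarith
      have hrm : ∀ i, μ i = lam → r i = -1 := by
        intro i hi
        simp only [hr, hi]
        field_simp
      have heven : Tendsto (fun j => W (2 * j)) atTop (𝓝 Px) := by
        simp only [hW, hPx]
        refine tendsto_finsetSum _ fun i _ => ?_
        refine Tendsto.smul_const ?_ _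
        by_cases hi : μ i = lam
        · have : ∀ j : ℕ, r i ^ (2 * j) * c i = d i := by
            intro j
            simp only [hd, if_pos hi]
            rw [hrm i hi, pow_mul]
            norm_num
          simp only [this]
          exact tendsto_const_nhds
        · have h0 : Tendsto (fun j : ℕ => (r i ^ 2) ^ j) atTop (𝓝 0) :=
            tendsto_pow_atTop_nhds_zero_of_lt_one (sq_nonneg _) (hr2 i hi)
          have h1 := h0.mul_const (c i)
          simp only [zero_mul] at h1
          have : d i = 0 := by simp only [hd, if_neg hi]
          rw [this]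
          refine h1.congr fun j => ?_
          rw [pow_mul]
      have hodd : Tendsto (fun j => W (2 * j + 1)) atTop (𝓝 (-Px)) := by
        simp only [hW, hPx]
        rw [← Finset.sum_neg_distrib]
        refine tendsto_finsetSum _ fun i _ => ?_
        rw [← neg_smul]
        refine Tendsto.smul_const ?_ _
        by_cases hi : μ i = lam
        · have : ∀ j : ℕ, r i ^ (2 * j + 1) * c i = -d i := by
            intro j
            simp only [hd, if_pos hi]
            rw [hrm i hi, pow_succ, pow_mul]
            norm_num
          simp only [this]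
          exact tendsto_const_nhds
        · have h0 : Tendsto (fun j : ℕ => (r i ^ 2) ^ j) atTop (𝓝 0) :=
            tendsto_pow_atTop_nhds_zero_of_lt_one (sq_nonneg _) (hr2 i hi)
          have h1 := h0.mul_const (r i * c i)
          simp only [zero_mul] at h1
          have : -d i = 0 := by simp only [hd, if_neg hi, neg_zero]
          rw [this]
          refine h1.congr fun j => ?_
          rw [pow_succ (r i) (2 * j), pow_mul]
          ring
      have hPK : Px ∈ K := hcl.mem_of_tendsto heven (Eventually.of_forall fun j => hWK _)
      have hPK' : -Px ∈ K := hcl.mem_of_tendsto hodd (Eventually.of_forall fun j => hWK _)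
      have hOP : O Px = lam • Px := by
        simp only [hPx]
        rw [hO, Finset.smul_sum]
        refine Finset.sum_congr rfl fun i _ => ?_
        rw [smul_smul]
        congr 1
        by_cases hi : μ i = lam
        · simp only [hd, if_pos hi, hi]; ring
        · simp only [hd, if_neg hi]; ring
      have h5 := hpt Px hPK hPK'
      rw [hOP, inner_smul_left] at h5
      have h6 : inner ℝ Px Px = 0 := by
        have h7 : 0 ≤ inner ℝ Px Px := real_inner_self_nonneg
        simp only [conj_trivial] at h5
        nlinarith
      have h8 : Px = 0 := inner_self_eq_zero.1 h6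
      have h9 : inner ℝ (b i0) Px = d i0 := by
        simp only [hPx]
        exact b.orthonormal.inner_right_fintype d i0
      rw [h8, inner_zero_right] at h9
      have h10 : d i0 = c i0 := by simp only [hd, hlamdef, if_true]
      rw [h10] at h9
      exact h9.symm
    obtain ⟨y, hy, z, hz, hyz⟩ := hspan (b i0)
    have h1 := hbb i0
    nth_rewrite 2 [hyz] at h1
    rw [inner_sub_right, key y hy, key z hz] at h1
    norm_num at h1
  -- conclusion
  intro x
  have h1 : inner ℝ (O x) x = ∑ i, μ i * inner ℝ (b i) x ^ 2 := by
    rw [← b.sum_inner_mul_inner (O x) x]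
    refine Finset.sum_congr rfl fun i _ => ?_
    rw [hsym x (b i), hb i, inner_smul_right, real_inner_comm x (b i)]
    ring
  have h2 : inner ℝ x x = ∑ i, inner ℝ (b i) x ^ 2 := by
    rw [← b.sum_inner_mul_inner x x]
    refine Finset.sum_congr rfl fun i _ => ?_
    rw [real_inner_comm x (b i)]
    ring
  rw [h1, h2]
  refine Finset.sum_le_sum fun i _ => ?_
  have := hμup i
  nlinarith [sq_nonneg (inner ℝ (b i) x)]

end ConeLemma

end Vale.Agent.H23.CT
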