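import Vale.Agent.H23.CT.Cone
import Vale.Agent.H90.KTV.Abs

/-!
# P328: cones reversed by the cross conditional expectations give the sharp gap

`Ω` is a finite set with the uniform law and `rel k` (`k : ι`) are equivalence relations on `Ω`
(think: `rel k X Y` iff the tables `X`, `Y` have the same `k`-th row).  `avgRel (rel k)` is the
conditional expectation given the class of `rel k`.

`sum_avgRel_le_of_reversing_cones`: if there are closed convex cones `K k` of
`rel k`-invariant functions, containing the constants, spanning the invariant functions,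
pointed modulo constants, such that `g ∈ K l` implies `-(avgRel (rel k) g) ∈ K k` for `k ≠ l`,
then `∑ k, E_k ≤ 2 I + (|ι| - 2) E` as quadratic forms.  `gap_of_reversing_cones` is the
same in the form of a Poincare inequality (for `ι = Fin 3` it has the shape of `ThreeRowGap`).
-/

namespace Vale.Agent.H23.CT

open Finset Vale.Agent.H90

section Centred

variable {Ω : Type*} [Fintype Ω]

/-- The global average, as an averaging operator. -/
noncomputable def avgAll (f : Ω → ℝ) : Ω → ℝ := avgRel (fun _ _ : Ω => True) f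

omit [Fintype Ω] in
theorem trueRel_equiv : Equivalence (fun _ _ : Ω => True) :=
  ⟨fun _ => trivial, fun _ => trivial, fun _ _ => trivial⟩

theorem avgAll_add (f g : Ω → ℝ) : avgAll (f + g) = avgAll f + avgAll g := avgRel_add _ f g

theorem avgAll_smul (c : ℝ) (f : Ω → ℝ) : avgAll (c • f) = c • avgAll f := avgRel_smul _ c f

theorem avgAll_sub (f g : Ω → ℝ) : avgAll (f - g) = avgAll f - avgAll g := avgRel_sub _ f g

theorem avgAll_idem (f : Ω → ℝ) : avgAll (avgAll f) = avgAll f := avgRel_idem trueRel_equiv f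

theorem avgAll_dot (f g : Ω → ℝ) : dot f (avgAll g) = dot (avgAll f) g :=
  avgRel_dot trueRel_equiv f g

theorem avgAll_eq_const (f : Ω → ℝ) : ∃ c : ℝ, avgAll f = fun _ => c :=
  ⟨_, rfl⟩

variable {rel : Ω → Ω → Prop} [DecidableRel rel]

theorem avgRel_const (h : Equivalence rel) (c : ℝ) : avgRel rel (fun _ : Ω => c) = fun _ => c :=
  avgRel_eq_self h _ (fun _ _ _ => rfl)

theorem avgRel_avgAll (h : Equivalence rel) (f : Ω → ℝ) : avgRel rel (avgAll f) = avgAll f := by
  obtain ⟨c, hc⟩ := avgAll_eq_const f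
  rw [hc]
  exact avgRel_const h c

theorem avgAll_avgRel [DecidableEq Ω] (h : Equivalence rel) (f : Ω → ℝ) :
    avgAll (avgRel rel f) = avgAll f := by
  apply eq_of_dot_eq
  intro g
  rw [avgAll_dot, avgRel_dot h, avgRel_avgAll h, ← avgAll_dot]

/-- The centred conditional expectation. -/
noncomputable def cavg (rel : Ω → Ω → Prop) [DecidableRel rel] (f : Ω → ℝ) : Ω → ℝ :=
  avgRel rel f - avgAll f

theorem cavg_add (f g : Ω → ℝ) : cavg rel (f + g) = cavg rel f + cavg rel g := by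
  unfold cavg
  rw [avgRel_add, avgAll_add]
  abel

theorem cavg_smul (c : ℝ) (f : Ω → ℝ) : cavg rel (c • f) = c • cavg rel f := by
  unfold cavg
  rw [avgRel_smul, avgAll_smul, smul_sub]

theorem cavg_dot (h : Equivalence rel) (f g : Ω → ℝ) :
    dot f (cavg rel g) = dot (cavg rel f) g := by
  unfold cavg
  rw [dot_sub_right, dot_sub_left, avgRel_dot h, avgAll_dot]

theorem avgRel_cavg (h : Equivalence rel) (f : Ω → ℝ) :
    avgRel rel (cavg rel f) = cavg rel f := by
  unfold cavg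
  rw [avgRel_sub, avgRel_idem h, avgRel_avgAll h]

theorem avgAll_cavg [DecidableEq Ω] (h : Equivalence rel) (f : Ω → ℝ) :
    avgAll (cavg rel f) = 0 := by
  unfold cavg
  rw [avgAll_sub, avgAll_avgRel h, avgAll_idem, sub_self]

theorem cavg_idem [DecidableEq Ω] (h : Equivalence rel) (f : Ω → ℝ) :
    cavg rel (cavg rel f) = cavg rel f := by
  have h1 : cavg rel (cavg rel f) = avgRel rel (cavg rel f) - avgAll (cavg rel f) := rfl
  rw [h1, avgRel_cavg h, avgAll_cavg h, sub_zero]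

theorem cavg_avgRel [DecidableEq Ω] (h : Equivalence rel) (f : Ω → ℝ) :
    cavg rel (avgRel rel f) = cavg rel f := by
  unfold cavg
  rw [avgRel_idem h, avgAll_avgRel h]

theorem cavg_const (h : Equivalence rel) (c : ℝ) : cavg rel (fun _ : Ω => c) = 0 := by
  unfold cavg
  rw [avgRel_const h, show avgAll (fun _ : Ω => c) = fun _ => c from avgRel_const trueRel_equiv c,
    sub_self]

theorem cavg_avgAll (h : Equivalence rel) (f : Ω → ℝ) : cavg rel (avgAll f) = 0 := by
  obtain ⟨c, hc⟩ := avgAll_eq_const f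
  rw [hc]
  exact cavg_const h c

/-- `cavg rel (cavg rel' c) = avgRel rel (avgRel rel' c) - avgAll c`. -/
theorem cavg_cavg [DecidableEq Ω] {rel' : Ω → Ω → Prop} [DecidableRel rel']
    (h : Equivalence rel) (h' : Equivalence rel') (c : Ω → ℝ) :
    cavg rel (cavg rel' c) = avgRel rel (avgRel rel' c) - avgAll c := by
  have h1 : cavg rel (cavg rel' c) = avgRel rel (cavg rel' c) - avgAll (cavg rel' c) := rfl
  rw [h1, avgAll_cavg h']
  unfold cavg
  rw [avgRel_sub, avgRel_avgAll h, sub_zero]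

theorem dot_avgRel_left (h : Equivalence rel) (f g : Ω → ℝ) :
    dot (avgRel rel f) g = dot (avgRel rel f) (avgRel rel g) := by
  calc dot (avgRel rel f) g = dot (avgRel rel (avgRel rel f)) g := by rw [avgRel_idem h]
    _ = dot (avgRel rel f) (avgRel rel g) := (avgRel_dot h (avgRel rel f) g).symm

theorem dot_avgAll_left (f g : Ω → ℝ) : dot (avgAll f) g = dot (avgAll f) (avgAll g) :=
  dot_avgRel_left trueRel_equiv f g

theorem dot_cavg_self [DecidableEq Ω] (h : Equivalence rel) (f : Ω → ℝ) :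
    dot (cavg rel f) (cavg rel f) = dot f (cavg rel f) := by
  rw [← cavg_dot h, cavg_idem h]

theorem dot_cavg_le [DecidableEq Ω] (h : Equivalence rel) (f : Ω → ℝ) :
    dot (cavg rel f) (cavg rel f) ≤ dot f f := by
  have hq : dot f (cavg rel f) = dot (cavg rel f) (cavg rel f) := (dot_cavg_self h f).symm
  have hq' : dot (cavg rel f) f = dot (cavg rel f) (cavg rel f) := by rw [dot_comm, hq]
  have h1 := dot_self_nonneg (f - cavg rel f)
  rw [dot_sub_left, dot_sub_right, dot_sub_right, hq, hq'] at h1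
  linarith

theorem dot_cavg_eq [DecidableEq Ω] (h : Equivalence rel) (f : Ω → ℝ) :
    dot (cavg rel f) (cavg rel f)
      = dot (avgRel rel f) (avgRel rel f) - dot (avgAll f) (avgAll f) := by
  have h2 : dot (avgAll f) (avgRel rel f) = dot (avgAll f) (avgAll f) := by
    rw [dot_avgAll_left, avgAll_avgRel h]
  have h1 : dot (avgRel rel f) (avgAll f) = dot (avgAll f) (avgAll f) := by
    rw [dot_comm, h2]
  unfold cavg
  rw [dot_sub_left, dot_sub_right, dot_sub_right, h1, h2]
  ring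

theorem dot_sub_avgAll (f : Ω → ℝ) :
    dot (f - avgAll f) (f - avgAll f) = dot f f - dot (avgAll f) (avgAll f) := by
  have h2 : dot (avgAll f) f = dot (avgAll f) (avgAll f) := dot_avgAll_left f f
  have h1 : dot f (avgAll f) = dot (avgAll f) (avgAll f) := by rw [dot_comm, h2]
  rw [dot_sub_left, dot_sub_right, dot_sub_right, h1, h2]
  ring

theorem dot_avgAll_self (f : Ω → ℝ) :
    dot (avgAll f) (avgAll f) = (∑ x, f x) ^ 2 / (Fintype.card Ω : ℝ) := by
  unfold dot avgAll avgRel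
  simp only [Finset.filter_true, Finset.sum_const, Finset.card_univ, nsmul_eq_mul]
  by_cases hN : (Fintype.card Ω : ℝ) = 0
  · rw [hN]; simp
  · field_simp

theorem dot_sub_avgRel (h : Equivalence rel) (f : Ω → ℝ) :
    ∑ x, (f x - avgRel rel f x) ^ 2 = dot f f - dot (avgRel rel f) (avgRel rel f) := by
  have h1' : dot (avgRel rel f) f = dot (avgRel rel f) (avgRel rel f) := dot_avgRel_left h f f
  have h1 : dot f (avgRel rel f) = dot (avgRel rel f) (avgRel rel f) := by rw [dot_comm, h1']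
  have h2 : ∑ x, (f x - avgRel rel f x) ^ 2 = dot (f - avgRel rel f) (f - avgRel rel f) := by
    unfold dot
    refine Finset.sum_congr rfl fun x _ => ?_
    simp only [Pi.sub_apply]
    ring
  rw [h2, dot_sub_left, dot_sub_right, dot_sub_right, h1, h1']
  ring

theorem dot_sq_le (a b : Ω → ℝ) : dot a b ^ 2 ≤ dot a a * dot b b := by
  unfold dot
  have := Finset.sum_mul_sq_le_sq_mul_sq (univ : Finset Ω) a b
  simpa [sq] using this

theorem sum_sub_mean_sq (f : Ω → ℝ) :
    ∑ x, (f x - (∑ y, f y) / (Fintype.card Ω : ℝ)) ^ 2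
      = dot f f - (∑ x, f x) ^ 2 / (Fintype.card Ω : ℝ) := by
  rw [← dot_avgAll_self, ← dot_sub_avgAll]
  unfold dot
  refine Finset.sum_congr rfl fun x _ => ?_
  simp only [Pi.sub_apply, avgAll, avgRel, Finset.filter_true, Finset.card_univ]
  ring

end Centred

section Main

variable {Ω ι : Type*} [Fintype Ω] [DecidableEq Ω] [Fintype ι] [DecidableEq ι]

/-- The `k`-th component of a vector of `ℝ ^ (ι × Ω)`. -/
def comp (x : EuclideanSpace ℝ (ι × Ω)) (k : ι) : Ω → ℝ := fun ω => x (k, ω)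

omit [Fintype Ω] [DecidableEq Ω] [Fintype ι] [DecidableEq ι] in
theorem comp_add (x y : EuclideanSpace ℝ (ι × Ω)) (k : ι) :
    comp (x + y) k = comp x k + comp y k := rfl

omit [Fintype Ω] [DecidableEq Ω] [Fintype ι] [DecidableEq ι] in
theorem comp_smul (c : ℝ) (x : EuclideanSpace ℝ (ι × Ω)) (k : ι) :
    comp (c • x) k = c • comp x k := rfl

omit [Fintype Ω] [DecidableEq Ω] [Fintype ι] [DecidableEq ι] in
theorem comp_neg (x : EuclideanSpace ℝ (ι × Ω)) (k : ι) : comp (-x) k = -comp x k := rfl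

omit [Fintype Ω] [DecidableEq Ω] [Fintype ι] [DecidableEq ι] in
theorem comp_sub (x y : EuclideanSpace ℝ (ι × Ω)) (k : ι) :
    comp (x - y) k = comp x k - comp y k := rfl

omit [Fintype Ω] [DecidableEq Ω] [Fintype ι] [DecidableEq ι] in
theorem comp_toLp (F : ι → Ω → ℝ) (k : ι) :
    comp (WithLp.toLp 2 (fun p : ι × Ω => F p.1 p.2)) k = F k := rfl

omit [DecidableEq Ω] [DecidableEq ι] in
theorem inner_eq_sum_dot (x y : EuclideanSpace ℝ (ι × Ω)) :
    inner ℝ x y = ∑ k, dot (comp x k) (comp y k) := by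
  rw [PiLp.inner_apply, Fintype.sum_prod_type]
  refine Finset.sum_congr rfl fun k _ => ?_
  unfold dot comp
  refine Finset.sum_congr rfl fun ω _ => ?_
  simp [mul_comm]

variable (rel : ι → Ω → Ω → Prop) [∀ k, DecidableRel (rel k)]

/-- The cross operator: `(O x)_k = ∑_{l ≠ k} P_k P_l x_l`, `P_k` the centred conditional
expectation of `rel k`. -/
noncomputable def crossOp : EuclideanSpace ℝ (ι × Ω) →ₗ[ℝ] EuclideanSpace ℝ (ι × Ω) where
  toFun x := WithLp.toLp 2 (fun p : ι × Ω =>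
    (∑ l ∈ univ.erase p.1, cavg (rel p.1) (cavg (rel l) (comp x l))) p.2)
  map_add' x y := by
    ext p
    simp only [PiLp.add_apply, comp_add, cavg_add, Finset.sum_add_distrib, Pi.add_apply]
  map_smul' c x := by
    ext p
    simp only [PiLp.smul_apply, comp_smul, cavg_smul, ← Finset.smul_sum, Pi.smul_apply,
      RingHom.id_apply]

omit [DecidableEq Ω] in
theorem comp_crossOp (x : EuclideanSpace ℝ (ι × Ω)) (k : ι) :
    comp (crossOp rel x) k = ∑ l ∈ univ.erase k, cavg (rel k) (cavg (rel l) (comp x l)) := rfl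

variable {rel}

omit [DecidableEq Ω] in
theorem inner_crossOp (hrel : ∀ k, Equivalence (rel k)) (x y : EuclideanSpace ℝ (ι × Ω)) :
    inner ℝ (crossOp rel x) y
      = ∑ k, ∑ l ∈ univ.erase k,
          dot (cavg (rel l) (comp x l)) (cavg (rel k) (comp y k)) := by
  rw [inner_eq_sum_dot]
  refine Finset.sum_congr rfl fun k _ => ?_
  rw [comp_crossOp, dot_sum_left]
  refine Finset.sum_congr rfl fun l _ => ?_
  rw [← cavg_dot (hrel k)]

omit [DecidableEq Ω] in
theorem inner_crossOp_self (hrel : ∀ k, Equivalence (rel k)) (x : EuclideanSpace ℝ (ι × Ω)) :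
    inner ℝ (crossOp rel x) x
      = dot (∑ k, cavg (rel k) (comp x k)) (∑ k, cavg (rel k) (comp x k))
        - ∑ k, dot (cavg (rel k) (comp x k)) (cavg (rel k) (comp x k)) := by
  rw [inner_crossOp hrel, dot_sum_right, ← Finset.sum_sub_distrib]
  refine Finset.sum_congr rfl fun k _ => ?_
  rw [dot_sum_left, ← Finset.add_sum_erase univ _ (Finset.mem_univ k)]
  ring

omit [DecidableEq Ω] in
theorem crossOp_symm (hrel : ∀ k, Equivalence (rel k)) : (crossOp rel).IsSymmetric := by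
  intro x y
  rw [real_inner_comm (crossOp rel y) x, inner_crossOp hrel, inner_crossOp hrel]
  rw [Finset.sum_sigma', Finset.sum_sigma']
  refine Finset.sum_bij' (fun p _ => ⟨p.2, p.1⟩) (fun p _ => ⟨p.2, p.1⟩) ?_ ?_ ?_ ?_ ?_
  · intro p hp
    simp only [Finset.mem_sigma, Finset.mem_univ, Finset.mem_erase, true_and, ne_eq, and_true]
      at hp ⊢
    exact fun h => hp h.symm
  · intro p hp
    simp only [Finset.mem_sigma, Finset.mem_univ, Finset.mem_erase, true_and, ne_eq, and_true]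
      at hp ⊢
    exact fun h => hp h.symm
  · intro p _; rfl
  · intro p _; rfl
  · intro p _
    exact dot_comm _ _

omit [Fintype Ω] [DecidableEq Ω] in
theorem sum_mem_cone {K : Set (Ω → ℝ)} (h0 : (0 : Ω → ℝ) ∈ K)
    (hadd : ∀ g ∈ K, ∀ h ∈ K, g + h ∈ K) {α : Type*} (s : Finset α) (F : α → Ω → ℝ)
    (hF : ∀ l ∈ s, F l ∈ K) : ∑ l ∈ s, F l ∈ K :=
  Finset.sum_induction F (· ∈ K) (fun a b ha hb => hadd a ha b hb) h0 hF

/-- COROLLARY 1 of the cone lemma, Gram form: cones reversed by the cross conditional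
expectations give `Var (∑ k, F k) ≤ 2 ∑ k, Var (F k)` for the centred conditional expectations
of arbitrary functions `F k` (that is, for arbitrary centred `rel k`-invariant functions). -/
theorem gram_le_two_of_reversing_cones
    (rel : ι → Ω → Ω → Prop) [∀ k, DecidableRel (rel k)] (hrel : ∀ k, Equivalence (rel k))
    (K : ι → Set (Ω → ℝ))
    (hinv : ∀ k, ∀ g ∈ K k, avgRel (rel k) g = g)
    (hcl : ∀ k, IsClosed (K k))
    (hadd : ∀ k, ∀ g ∈ K k, ∀ h ∈ K k, g + h ∈ K k)
    (hsmul : ∀ k (c : ℝ), 0 ≤ c → ∀ g ∈ K k, c • g ∈ K k)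
    (hconst : ∀ k (c : ℝ), (fun _ => c) ∈ K k)
    (hspan : ∀ k (g : Ω → ℝ), avgRel (rel k) g = g → ∃ a ∈ K k, ∃ b ∈ K k, g = a - b)
    (hpt : ∀ k, ∀ g ∈ K k, -g ∈ K k → ∃ c : ℝ, g = fun _ => c)
    (hrev : ∀ k l, k ≠ l → ∀ g ∈ K l, -(avgRel (rel k) g) ∈ K k)
    (F : ι → Ω → ℝ) :
    dot (∑ k, cavg (rel k) (F k)) (∑ k, cavg (rel k) (F k))
      ≤ 2 * ∑ k, dot (cavg (rel k) (F k)) (cavg (rel k) (F k)) := by
  -- the cone in the big space
  set KK : Set (EuclideanSpace ℝ (ι × Ω)) :=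
    {x | ∀ k, avgRel (rel k) (comp x k) ∈ K k} with hKK
  have h0 : ∀ k, (0 : Ω → ℝ) ∈ K k := fun k => hconst k 0
  have hKKcl : IsClosed KK := by
    have : KK = ⋂ k, (fun x : EuclideanSpace ℝ (ι × Ω) => avgRel (rel k) (comp x k)) ⁻¹' (K k) := by
      ext x
      simp only [hKK, Set.mem_ofPred_eq, Set.mem_iInter, Set.mem_preimage]
    rw [this]
    refine isClosed_iInter fun k => (hcl k).preimage ?_
    refine continuous_pi fun ω => ?_
    unfold avgRel comp
    fun_prop
  have hKKsmul : ∀ c : ℝ, 0 ≤ c → ∀ x ∈ KK, c • x ∈ KK := by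
    intro c hc x hx k
    rw [comp_smul, avgRel_smul]
    exact hsmul k c hc _ (hx k)
  have hKKspan : ∀ x, ∃ y ∈ KK, ∃ z ∈ KK, x = y - z := by
    intro x
    choose a ha b hb hab using fun k => hspan k _ (avgRel_idem (hrel k) (comp x k))
    refine ⟨WithLp.toLp 2 (fun p : ι × Ω =>
        (a p.1 + (comp x p.1 - avgRel (rel p.1) (comp x p.1))) p.2), ?_,
      WithLp.toLp 2 (fun p : ι × Ω => b p.1 p.2), ?_, ?_⟩
    · intro k
      rw [comp_toLp (fun k => a k + (comp x k - avgRel (rel k) (comp x k))) k, avgRel_add,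
        avgRel_sub, avgRel_idem (hrel k), sub_self, add_zero, hinv k _ (ha k)]
      exact ha k
    · intro k
      rw [comp_toLp b k, hinv k _ (hb k)]
      exact hb k
    · ext p
      have h1 := congrFun (hab p.1) p.2
      simp only [Pi.sub_apply] at h1
      simp only [PiLp.sub_apply, Pi.add_apply, Pi.sub_apply]
      have h2 : comp x p.1 p.2 = x p := rfl
      rw [h2]
      linarith
  have hKKrev : ∀ x ∈ KK, -(crossOp rel x) ∈ KK := by
    intro x hx k
    rw [comp_neg, comp_crossOp, ← Finset.sum_neg_distrib]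
    have h1 : avgRel (rel k)
        (∑ l ∈ univ.erase k, -cavg (rel k) (cavg (rel l) (comp x l)))
        = ∑ l ∈ univ.erase k, -cavg (rel k) (cavg (rel l) (comp x l)) := by
      apply avgRel_eq_self (hrel k)
      intro ω ω' hω
      simp only [Finset.sum_apply, Pi.neg_apply]
      refine Finset.sum_congr rfl fun l _ => ?_
      rw [← avgRel_cavg (hrel k)]
      rw [avgRel_of_rel (hrel k) _ hω]
    rw [h1]
    refine sum_mem_cone (h0 k) (hadd k) _ _ fun l hl => ?_
    have hlk : k ≠ l := fun h => (Finset.mem_erase.1 hl).1 h.symm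
    rw [cavg_cavg (hrel k) (hrel l), neg_sub]
    have h2 : avgAll (comp x l) - avgRel (rel k) (avgRel (rel l) (comp x l))
        = avgAll (comp x l) + -(avgRel (rel k) (avgRel (rel l) (comp x l))) := by
      rw [sub_eq_add_neg]
    rw [h2]
    refine hadd k _ ?_ _ (hrev k l hlk _ (hx l))
    obtain ⟨c, hc⟩ := avgAll_eq_const (comp x l)
    rw [hc]
    exact hconst k c
  have hKKpt : ∀ x ∈ KK, -x ∈ KK →
      inner ℝ (crossOp rel x) x ≤ inner ℝ x x := by
    intro x hx hx'
    have hu : ∀ k, cavg (rel k) (comp x k) = 0 := by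
      intro k
      have h1 := hx k
      have h2 := hx' k
      rw [comp_neg] at h2
      have h3 : avgRel (rel k) (-comp x k) = -avgRel (rel k) (comp x k) := by
        have := avgRel_smul (rel k) (-1) (comp x k)
        simpa using this
      rw [h3] at h2
      obtain ⟨c, hc⟩ := hpt k _ h1 h2
      rw [← cavg_avgRel (hrel k), hc]
      exact cavg_const (hrel k) c
    rw [inner_crossOp_self hrel]
    simp only [hu, Finset.sum_const_zero, dot_zero_left, sub_zero]
    exact real_inner_self_nonneg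
  have hlow : ∀ x : EuclideanSpace ℝ (ι × Ω), -inner ℝ x x ≤ inner ℝ (crossOp rel x) x := by
    intro x
    rw [inner_crossOp_self hrel, inner_eq_sum_dot]
    have h1 := dot_self_nonneg (∑ k, cavg (rel k) (comp x k))
    have h2 : ∑ k, dot (cavg (rel k) (comp x k)) (cavg (rel k) (comp x k))
        ≤ ∑ k, dot (comp x k) (comp x k) :=
      Finset.sum_le_sum fun k _ => dot_cavg_le (hrel k) _
    linarith
  have hmain := cone_lemma (crossOp rel) (crossOp_symm hrel) hlow KK hKKcl hKKsmul hKKspan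
    hKKrev hKKpt
  -- apply to the vector of the centred conditional expectations
  have h1 := hmain (WithLp.toLp 2 (fun p : ι × Ω => cavg (rel p.1) (F p.1) p.2))
  rw [inner_crossOp_self hrel, inner_eq_sum_dot] at h1
  simp only [comp_toLp (fun k => cavg (rel k) (F k))] at h1
  have hφφ : ∀ k, cavg (rel k) (cavg (rel k) (F k)) = cavg (rel k) (F k) :=
    fun k => cavg_idem (hrel k) (F k)
  simp only [hφφ] at h1
  linarith

omit [DecidableEq ι] in
/-- From the Gram form to the operator form `∑ k, E_k ≤ 2 I + (|ι| - 2) E` (duality). -/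
theorem sum_avgRel_le_of_gram
    (rel : ι → Ω → Ω → Prop) [∀ k, DecidableRel (rel k)] (hrel : ∀ k, Equivalence (rel k))
    (hG : ∀ F : ι → Ω → ℝ, dot (∑ k, cavg (rel k) (F k)) (∑ k, cavg (rel k) (F k))
      ≤ 2 * ∑ k, dot (cavg (rel k) (F k)) (cavg (rel k) (F k)))
    (f : Ω → ℝ) :
    ∑ k, dot (avgRel (rel k) f) (avgRel (rel k) f)
      ≤ 2 * dot f f + ((Fintype.card ι : ℝ) - 2) * ((∑ x, f x) ^ 2 / (Fintype.card Ω : ℝ)) := by
  set φ : ι → Ω → ℝ := fun k => cavg (rel k) f with hφ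
  have h1 := hG (fun _ => f)
  set A : ℝ := ∑ k, dot (φ k) (φ k) with hA
  set V : ℝ := dot (f - avgAll f) (f - avgAll f) with hV
  have hA0 : 0 ≤ A := Finset.sum_nonneg fun k _ => dot_self_nonneg _
  have hV0 : 0 ≤ V := dot_self_nonneg _
  have hA1 : A = dot (∑ k, φ k) (f - avgAll f) := by
    rw [dot_sum_left]
    refine Finset.sum_congr rfl fun k _ => ?_
    rw [dot_sub_right]
    have e1 : dot (φ k) (avgAll f) = 0 := by
      rw [← cavg_dot (hrel k), cavg_avgAll (hrel k), dot_zero_right]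
    rw [e1, sub_zero, dot_cavg_self (hrel k), dot_comm]
  have hCS : dot (∑ k, φ k) (f - avgAll f) ^ 2
      ≤ dot (∑ k, φ k) (∑ k, φ k) * V := dot_sq_le _ _
  have hA2 : A ≤ 2 * V := by
    rw [← hA1] at hCS
    by_contra hcon
    push Not at hcon
    have h3 : dot (∑ k, φ k) (∑ k, φ k) ≤ 2 * A := h1
    have h4 : A ^ 2 ≤ 2 * A * V := le_trans hCS (mul_le_mul_of_nonneg_right h3 hV0)
    nlinarith
  have hA3 : A = ∑ k, dot (avgRel (rel k) f) (avgRel (rel k) f)
      - (Fintype.card ι : ℝ) * dot (avgAll f) (avgAll f) := by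
    rw [hA, Finset.sum_congr rfl (fun k _ => dot_cavg_eq (hrel k) f), Finset.sum_sub_distrib,
      Finset.sum_const, Finset.card_univ, nsmul_eq_mul]
  rw [hV, dot_sub_avgAll, hA3] at hA2
  rw [← dot_avgAll_self]
  linarith

omit [DecidableEq Ω] [DecidableEq ι] in
/-- From the operator form to the Poincare form. -/
theorem gap_of_sum_avgRel_le
    (rel : ι → Ω → Ω → Prop) [∀ k, DecidableRel (rel k)] (hrel : ∀ k, Equivalence (rel k))
    (f : Ω → ℝ)
    (h : ∑ k, dot (avgRel (rel k) f) (avgRel (rel k) f)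
      ≤ 2 * dot f f + ((Fintype.card ι : ℝ) - 2) * ((∑ x, f x) ^ 2 / (Fintype.card Ω : ℝ))) :
    ((Fintype.card ι : ℝ) - 2) * ∑ x, (f x - (∑ y, f y) / (Fintype.card Ω : ℝ)) ^ 2
      ≤ ∑ k, ∑ x, (f x - avgRel (rel k) f x) ^ 2 := by
  rw [sum_sub_mean_sq]
  have h2 : ∑ k, ∑ x, (f x - avgRel (rel k) f x) ^ 2
      = (Fintype.card ι : ℝ) * dot f f - ∑ k, dot (avgRel (rel k) f) (avgRel (rel k) f) := by
    rw [Finset.sum_congr rfl (fun k _ => dot_sub_avgRel (hrel k) f), Finset.sum_sub_distrib,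
      Finset.sum_const, Finset.card_univ, nsmul_eq_mul]
  rw [h2]
  linarith

/-- COROLLARY 1 of the cone lemma, operator form: cones reversed by the cross conditional
expectations give `∑ k, E_k ≤ 2 I + (|ι| - 2) E`. -/
theorem sum_avgRel_le_of_reversing_cones
    (rel : ι → Ω → Ω → Prop) [∀ k, DecidableRel (rel k)] (hrel : ∀ k, Equivalence (rel k))
    (K : ι → Set (Ω → ℝ))
    (hinv : ∀ k, ∀ g ∈ K k, avgRel (rel k) g = g)
    (hcl : ∀ k, IsClosed (K k))
    (hadd : ∀ k, ∀ g ∈ K k, ∀ h ∈ K k, g + h ∈ K k)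
    (hsmul : ∀ k (c : ℝ), 0 ≤ c → ∀ g ∈ K k, c • g ∈ K k)
    (hconst : ∀ k (c : ℝ), (fun _ => c) ∈ K k)
    (hspan : ∀ k (g : Ω → ℝ), avgRel (rel k) g = g → ∃ a ∈ K k, ∃ b ∈ K k, g = a - b)
    (hpt : ∀ k, ∀ g ∈ K k, -g ∈ K k → ∃ c : ℝ, g = fun _ => c)
    (hrev : ∀ k l, k ≠ l → ∀ g ∈ K l, -(avgRel (rel k) g) ∈ K k)
    (f : Ω → ℝ) :
    ∑ k, dot (avgRel (rel k) f) (avgRel (rel k) f)
      ≤ 2 * dot f f + ((Fintype.card ι : ℝ) - 2) * ((∑ x, f x) ^ 2 / (Fintype.card Ω : ℝ)) :=
  sum_avgRel_le_of_gram rel hrel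
    (gram_le_two_of_reversing_cones rel hrel K hinv hcl hadd hsmul hconst hspan hpt hrev) f

/-- COROLLARY 1 of the cone lemma, Poincare form (for `ι = Fin 3` this is the shape of
`ThreeRowGap`). -/
theorem gap_of_reversing_cones
    (rel : ι → Ω → Ω → Prop) [∀ k, DecidableRel (rel k)] (hrel : ∀ k, Equivalence (rel k))
    (K : ι → Set (Ω → ℝ))
    (hinv : ∀ k, ∀ g ∈ K k, avgRel (rel k) g = g)
    (hcl : ∀ k, IsClosed (K k))
    (hadd : ∀ k, ∀ g ∈ K k, ∀ h ∈ K k, g + h ∈ K k)
    (hsmul : ∀ k (c : ℝ), 0 ≤ c → ∀ g ∈ K k, c • g ∈ K k)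
    (hconst : ∀ k (c : ℝ), (fun _ => c) ∈ K k)
    (hspan : ∀ k (g : Ω → ℝ), avgRel (rel k) g = g → ∃ a ∈ K k, ∃ b ∈ K k, g = a - b)
    (hpt : ∀ k, ∀ g ∈ K k, -g ∈ K k → ∃ c : ℝ, g = fun _ => c)
    (hrev : ∀ k l, k ≠ l → ∀ g ∈ K l, -(avgRel (rel k) g) ∈ K k)
    (f : Ω → ℝ) :
    ((Fintype.card ι : ℝ) - 2) * ∑ x, (f x - (∑ y, f y) / (Fintype.card Ω : ℝ)) ^ 2
      ≤ ∑ k, ∑ x, (f x - avgRel (rel k) f x) ^ 2 :=
  gap_of_sum_avgRel_le rel hrel f
    (sum_avgRel_le_of_reversing_cones rel hrel K hinv hcl hadd hsmul hconst hspan hpt hrev f)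

end Main

end Vale.Agent.H23.CT
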