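import Vale.Agent.H90.KTV.Abs

/-!
# P328: stochastic monotonicity in tail form gives monotone conditional expectations

`Zk`, `Zl` are two natural-number valued coordinates on a finite set `Ω` with the uniform law.
If the law of `Zl` given `Zk = t` is stochastically nonincreasing in `t` (tail counts,
cross-multiplied), then for every function `g` which is a nondecreasing function of `Zl`, the
conditional expectation of `g` given `Zk` is a nonincreasing function of `Zk`.
-/

namespace Vale.Agent.H23.CT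

open Finset Vale.Agent.H90

/-- Layer-cake formula for a function on the natural numbers below a bound `B`. -/
theorem cttail_layer (ψ : ℕ → ℝ) (B v : ℕ) (hv : v ≤ B) :
    ψ v = ψ 0 + ∑ u ∈ range B, (if u + 1 ≤ v then ψ (u + 1) - ψ u else 0) := by
  have e : (range B).filter (fun u => u + 1 ≤ v) = range v := by
    ext u
    simp only [mem_filter, mem_range]
    omega
  rw [← Finset.sum_filter, e, Finset.sum_range_sub]
  ring

/-- The sum over a finite set of a function of `Zl`, in layer-cake form. -/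
theorem cttail_sum {Ω : Type*} (Zl : Ω → ℕ) (ψ : ℕ → ℝ) (B : ℕ)
    (hB : ∀ ω, Zl ω ≤ B) (A : Finset Ω) :
    ∑ a ∈ A, ψ (Zl a) = (A.card : ℝ) * ψ 0
      + ∑ u ∈ range B,
          (ψ (u + 1) - ψ u) * ((A.filter (fun a => u + 1 ≤ Zl a)).card : ℝ) := by
  have h1 : ∀ a ∈ A, ψ (Zl a)
      = ψ 0 + ∑ u ∈ range B, (if u + 1 ≤ Zl a then ψ (u + 1) - ψ u else 0) :=
    fun a _ => cttail_layer ψ B (Zl a) (hB a)
  rw [Finset.sum_congr rfl h1, Finset.sum_add_distrib, Finset.sum_const, nsmul_eq_mul,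
    Finset.sum_comm]
  congr 1
  refine Finset.sum_congr rfl (fun u _ => ?_)
  rw [← Finset.sum_filter, Finset.sum_const, nsmul_eq_mul]
  ring

/-- Cross-multiplied comparison of the sums of a nondecreasing function of `Zl` over two finite
sets whose tail counts are cross-multiplied comparable. -/
theorem cttail_key {Ω : Type*} [Fintype Ω] (Zl : Ω → ℕ) (A A' : Finset Ω)
    (hT : ∀ u : ℕ, ((A'.filter (fun a => u ≤ Zl a)).card : ℝ) * (A.card : ℝ)
      ≤ ((A.filter (fun a => u ≤ Zl a)).card : ℝ) * (A'.card : ℝ))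
    (g : Ω → ℝ) (hg : ∀ ω ω', Zl ω ≤ Zl ω' → g ω ≤ g ω') (ω₀ : Ω) :
    (∑ y ∈ A', g y) * (A.card : ℝ) ≤ (∑ y ∈ A, g y) * (A'.card : ℝ) := by
  classical
  obtain ⟨x₀, -, hx₀⟩ := Finset.exists_min_image (univ : Finset Ω) Zl ⟨ω₀, mem_univ ω₀⟩
  let ψ : ℕ → ℝ := fun v =>
    (insert x₀ (univ.filter (fun x => Zl x ≤ v))).sup' (Finset.insert_nonempty _ _) g
  have hψmono : ∀ u, ψ u ≤ ψ (u + 1) := by
    intro u
    apply Finset.sup'_mono
    apply Finset.insert_subset_insert
    intro x hx
    simp only [mem_filter, mem_univ, true_and] at hx ⊢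
    omega
  have hψg : ∀ a, ψ (Zl a) = g a := by
    intro a
    apply le_antisymm
    · apply Finset.sup'_le
      intro x hx
      rw [Finset.mem_insert] at hx
      rcases hx with rfl | hx
      · exact hg _ _ (hx₀ a (mem_univ a))
      · simp only [mem_filter, mem_univ, true_and] at hx
        exact hg _ _ hx
    · apply Finset.le_sup' g
      apply Finset.mem_insert_of_mem
      simp
  have hBle : ∀ x, Zl x ≤ univ.sup Zl := fun x => Finset.le_sup (mem_univ x)
  have e1 : ∑ y ∈ A, g y = ∑ y ∈ A, ψ (Zl y) :=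
    Finset.sum_congr rfl (fun y _ => (hψg y).symm)
  have e2 : ∑ y ∈ A', g y = ∑ y ∈ A', ψ (Zl y) :=
    Finset.sum_congr rfl (fun y _ => (hψg y).symm)
  rw [e1, e2, cttail_sum Zl ψ (univ.sup Zl) hBle A, cttail_sum Zl ψ (univ.sup Zl) hBle A']
  have key : ∑ u ∈ range (univ.sup Zl),
        (ψ (u + 1) - ψ u) * ((A'.filter (fun a => u + 1 ≤ Zl a)).card : ℝ) * (A.card : ℝ)
      ≤ ∑ u ∈ range (univ.sup Zl),
        (ψ (u + 1) - ψ u) * ((A.filter (fun a => u + 1 ≤ Zl a)).card : ℝ) * (A'.card : ℝ) := by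
    refine Finset.sum_le_sum (fun u _ => ?_)
    have h0 : 0 ≤ ψ (u + 1) - ψ u := sub_nonneg.2 (hψmono u)
    have h1 := hT (u + 1)
    calc (ψ (u + 1) - ψ u) * ((A'.filter (fun a => u + 1 ≤ Zl a)).card : ℝ) * (A.card : ℝ)
        = (ψ (u + 1) - ψ u)
            * (((A'.filter (fun a => u + 1 ≤ Zl a)).card : ℝ) * (A.card : ℝ)) := by ring
      _ ≤ (ψ (u + 1) - ψ u)
            * (((A.filter (fun a => u + 1 ≤ Zl a)).card : ℝ) * (A'.card : ℝ)) :=
          mul_le_mul_of_nonneg_left h1 h0
      _ = (ψ (u + 1) - ψ u) * ((A.filter (fun a => u + 1 ≤ Zl a)).card : ℝ)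
            * (A'.card : ℝ) := by ring
  rw [add_mul, add_mul, Finset.sum_mul, Finset.sum_mul]
  have e3 : (A'.card : ℝ) * ψ 0 * (A.card : ℝ) = (A.card : ℝ) * ψ 0 * (A'.card : ℝ) := by ring
  rw [e3]
  linarith [key]

/-- Tail form of stochastic monotonicity implies: the conditional expectation given `Zk` of a
nondecreasing function of `Zl` is a nonincreasing function of `Zk`. -/
theorem avgRel_antitone_of_tails {Ω : Type*} [Fintype Ω] (Zk Zl : Ω → ℕ)
    (hZ : ∀ t t' u : ℕ, t < t' →
      (univ.filter (fun ω => Zk ω = t' ∧ u ≤ Zl ω)).card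
          * (univ.filter (fun ω => Zk ω = t)).card
        ≤ (univ.filter (fun ω => Zk ω = t ∧ u ≤ Zl ω)).card
          * (univ.filter (fun ω => Zk ω = t')).card)
    (g : Ω → ℝ) (hg : ∀ ω ω', Zl ω ≤ Zl ω' → g ω ≤ g ω') (ω ω' : Ω) (h : Zk ω ≤ Zk ω') :
    avgRel (fun a b => Zk a = Zk b) g ω' ≤ avgRel (fun a b => Zk a = Zk b) g ω := by
  classical
  rcases Nat.eq_or_lt_of_le h with heq | hlt
  · simp only [avgRel]
    rw [heq]
  · simp only [avgRel]
    have c3 : univ.filter (fun y => Zk ω = Zk y) = univ.filter (fun y => Zk y = Zk ω) :=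
      Finset.filter_congr (fun x _ => eq_comm)
    have c4 : univ.filter (fun y => Zk ω' = Zk y) = univ.filter (fun y => Zk y = Zk ω') :=
      Finset.filter_congr (fun x _ => eq_comm)
    rw [c3, c4]
    have hAne : 0 < ((univ.filter (fun y => Zk y = Zk ω)).card : ℝ) := by
      have : 0 < (univ.filter (fun y => Zk y = Zk ω)).card :=
        Finset.card_pos.2 ⟨ω, by simp⟩
      exact_mod_cast this
    have hA'ne : 0 < ((univ.filter (fun y => Zk y = Zk ω')).card : ℝ) := by
      have : 0 < (univ.filter (fun y => Zk y = Zk ω')).card :=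
        Finset.card_pos.2 ⟨ω', by simp⟩
      exact_mod_cast this
    rw [div_le_div_iff₀ hA'ne hAne]
    refine cttail_key Zl _ _ (fun u => ?_) g hg ω
    rw [Finset.filter_filter, Finset.filter_filter]
    exact_mod_cast hZ (Zk ω) (Zk ω') u hlt

end Vale.Agent.H23.CT
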