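import Vale.Agent.H23.CT.ConeGap
import Vale.Agent.H23.CT.ConeTail

/-!
# P328: scalar coordinates with stochastically decreasing conditionals (Corollary 2)

`Z k` (`k : ι`) are natural-number valued coordinates on a finite set `Ω` with the uniform law.
If for all `k ≠ l` the law of `Z l` given `Z k = t` is stochastically nonincreasing in `t`, then
`Var (∑ k, F k) ≤ 2 ∑ k, Var (F k)` for the centred conditional expectations of arbitrary
functions given the coordinates, equivalently `∑ k, E[. | Z k] ≤ 2 I + (|ι| - 2) E`,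
equivalently `(|ι| - 2) Var f ≤ ∑ k, E Var(f | Z k)`.

The cone of the coordinate `k` is the cone of the nondecreasing functions of `Z k`.
-/

namespace Vale.Agent.H23.CT

open Finset Vale.Agent.H90

variable {Ω ι : Type*} [Fintype Ω] [DecidableEq Ω] [Fintype ι] [DecidableEq ι]

omit [Fintype Ω] [DecidableEq Ω] [Fintype ι] [DecidableEq ι] in
theorem sameCoord_equiv (Z : ι → Ω → ℕ) (k : ι) :
    Equivalence (fun a b : Ω => Z k a = Z k b) :=
  ⟨fun _ => rfl, fun h => h.symm, fun h1 h2 => h1.trans h2⟩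

/-- COROLLARY 2, Gram form. -/
theorem gram_le_two_of_stochDecreasing (Z : ι → Ω → ℕ)
    (hZ : ∀ k l, k ≠ l → ∀ t t' u : ℕ, t < t' →
      (univ.filter (fun ω => Z k ω = t' ∧ u ≤ Z l ω)).card
          * (univ.filter (fun ω => Z k ω = t)).card
        ≤ (univ.filter (fun ω => Z k ω = t ∧ u ≤ Z l ω)).card
          * (univ.filter (fun ω => Z k ω = t')).card)
    (F : ι → Ω → ℝ) :
    dot (∑ k, cavg (fun a b => Z k a = Z k b) (F k)) (∑ k, cavg (fun a b => Z k a = Z k b) (F k))
      ≤ 2 * ∑ k, dot (cavg (fun a b => Z k a = Z k b) (F k))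
          (cavg (fun a b => Z k a = Z k b) (F k)) := by
  set K : ι → Set (Ω → ℝ) := fun k => {g | ∀ ω ω', Z k ω ≤ Z k ω' → g ω ≤ g ω'} with hK
  have hrel := sameCoord_equiv Z
  refine gram_le_two_of_reversing_cones (fun k a b => Z k a = Z k b) hrel K ?_ ?_ ?_ ?_ ?_ ?_ ?_
    ?_ F
  · -- invariance
    intro k g hg
    exact avgRel_eq_self (hrel k) g
      (fun x y hxy => le_antisymm (hg x y (le_of_eq hxy)) (hg y x (le_of_eq hxy.symm)))
  · -- closedness
    intro k
    have : K k = ⋂ ω, ⋂ ω', {g : Ω → ℝ | Z k ω ≤ Z k ω' → g ω ≤ g ω'} := by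
      ext g
      simp only [hK, Set.mem_ofPred_eq, Set.mem_iInter]
    rw [this]
    refine isClosed_iInter fun ω => isClosed_iInter fun ω' => ?_
    by_cases h : Z k ω ≤ Z k ω'
    · simp only [h, forall_true_left]
      exact isClosed_le (continuous_apply ω) (continuous_apply ω')
    · simp only [h, false_imp_iff, Set.ofPred_true]
      exact isClosed_univ
  · -- addition
    intro k g hg h hh ω ω' hle
    exact add_le_add (hg ω ω' hle) (hh ω ω' hle)
  · -- nonnegative multiples
    intro k c hc g hg ω ω' hle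
    simp only [Pi.smul_apply, smul_eq_mul]
    exact mul_le_mul_of_nonneg_left (hg ω ω' hle) hc
  · -- constants
    intro k c ω ω' _
    exact le_rfl
  · -- spanning
    intro k g hg
    have hinvg : ∀ ω ω', Z k ω = Z k ω' → g ω = g ω' := by
      intro ω ω' h
      have h1 := avgRel_of_rel (hrel k) g h
      rwa [hg] at h1
    set M : ℝ := 2 * ∑ ω, |g ω| with hM
    have hM0 : 0 ≤ M := by
      have : 0 ≤ ∑ ω, |g ω| := Finset.sum_nonneg fun ω _ => abs_nonneg _
      linarith
    have hMle : ∀ ω, |g ω| ≤ ∑ ω, |g ω| := fun ω =>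
      Finset.single_le_sum (f := fun ω => |g ω|) (fun _ _ => abs_nonneg _) (Finset.mem_univ ω)
    refine ⟨fun ω => g ω + M * (Z k ω : ℝ), ?_, fun ω => M * (Z k ω : ℝ), ?_, ?_⟩
    · intro ω ω' hle
      rcases eq_or_lt_of_le hle with heq | hlt
      · simp only [heq, hinvg ω ω' heq]
        exact le_rfl
      · have h1 : (Z k ω : ℝ) + 1 ≤ (Z k ω' : ℝ) := by exact_mod_cast hlt
        have h2 := hMle ω
        have h3 := hMle ω'
        have h4 := abs_le.1 (le_refl |g ω|)
        have h5 := abs_le.1 (le_refl |g ω'|)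
        show g ω + M * (Z k ω : ℝ) ≤ g ω' + M * (Z k ω' : ℝ)
        nlinarith
    · intro ω ω' hle
      have h1 : (Z k ω : ℝ) ≤ (Z k ω' : ℝ) := by exact_mod_cast hle
      exact mul_le_mul_of_nonneg_left h1 hM0
    · funext ω
      simp only [Pi.sub_apply]
      ring
  · -- pointed modulo constants
    intro k g hg hg'
    rcases isEmpty_or_nonempty Ω with hΩ | ⟨⟨ω₀⟩⟩
    · exact ⟨0, funext fun ω => (hΩ.false ω).elim⟩
    · refine ⟨g ω₀, funext fun ω => ?_⟩
      rcases le_total (Z k ω) (Z k ω₀) with h | h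
      · have h1 := hg ω ω₀ h
        have h2 := hg' ω ω₀ h
        simp only [Pi.neg_apply] at h2
        linarith
      · have h1 := hg ω₀ ω h
        have h2 := hg' ω₀ ω h
        simp only [Pi.neg_apply] at h2
        linarith
  · -- reversal
    intro k l hkl g hg ω ω' hle
    simp only [Pi.neg_apply]
    exact neg_le_neg (avgRel_antitone_of_tails (Z k) (Z l) (hZ k l hkl) g hg ω ω' hle)

/-- COROLLARY 2, operator form. -/
theorem sum_avgRel_le_of_stochDecreasing (Z : ι → Ω → ℕ)
    (hZ : ∀ k l, k ≠ l → ∀ t t' u : ℕ, t < t' →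
      (univ.filter (fun ω => Z k ω = t' ∧ u ≤ Z l ω)).card
          * (univ.filter (fun ω => Z k ω = t)).card
        ≤ (univ.filter (fun ω => Z k ω = t ∧ u ≤ Z l ω)).card
          * (univ.filter (fun ω => Z k ω = t')).card)
    (f : Ω → ℝ) :
    ∑ k, dot (avgRel (fun a b => Z k a = Z k b) f) (avgRel (fun a b => Z k a = Z k b) f)
      ≤ 2 * dot f f + ((Fintype.card ι : ℝ) - 2) * ((∑ x, f x) ^ 2 / (Fintype.card Ω : ℝ)) :=
  sum_avgRel_le_of_gram (fun k a b => Z k a = Z k b) (sameCoord_equiv Z)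
    (gram_le_two_of_stochDecreasing Z hZ) f

/-- COROLLARY 2, Poincare form. -/
theorem gap_of_stochDecreasing (Z : ι → Ω → ℕ)
    (hZ : ∀ k l, k ≠ l → ∀ t t' u : ℕ, t < t' →
      (univ.filter (fun ω => Z k ω = t' ∧ u ≤ Z l ω)).card
          * (univ.filter (fun ω => Z k ω = t)).card
        ≤ (univ.filter (fun ω => Z k ω = t ∧ u ≤ Z l ω)).card
          * (univ.filter (fun ω => Z k ω = t')).card)
    (f : Ω → ℝ) :
    ((Fintype.card ι : ℝ) - 2) * ∑ x, (f x - (∑ y, f y) / (Fintype.card Ω : ℝ)) ^ 2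
      ≤ ∑ k, ∑ x, (f x - avgRel (fun a b => Z k a = Z k b) f x) ^ 2 :=
  gap_of_sum_avgRel_le (fun k a b => Z k a = Z k b) (sameCoord_equiv Z) f
    (sum_avgRel_le_of_stochDecreasing Z hZ f)

end Vale.Agent.H23.CT
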