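import Vale.Agent.H41.CT.TriCover
import Vale.Agent.H25.CT.TriCover
import Vale.Agent.H88.CT.Final
import Vale.Agent.H91.CT.Transfer

/-!
# P328: the canonical triangle-cover hypothesis implies the three-row gap and mixing

`Vale.Agent.H41.CT.TriCoverHyp` (helper41's statement of the primal TRI-COVER, parametrised by
the small class) implies `Vale.Agent.H25.CT.TriCoverHyp` (the same statement with the column
sums written with an `if`), hence `ThreeRowGap` by helper25's induction
`Vale.Agent.H25.CT.threeRowGap_of_triCover`, hence the mixing time bound of the lazy `2 x 2`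
heat-bath chain for all `m, n ≥ 2` and all margins.
-/

namespace Vale.Agent.H23.CT

open Finset Vale.Agent.H90 Vale.Agent.H88.CT

theorem colUp_eq {n : ℕ} (c : Fin n → ℕ) (t : Fin 3 → Fin n) (ht : Function.Injective t) :
    Vale.Agent.H41.CT.colUp c t = fun l => c l + if ∃ k, t k = l then 1 else 0 := by
  funext l
  unfold Vale.Agent.H41.CT.colUp
  congr 1
  by_cases hl : ∃ k, t k = l
  · obtain ⟨k0, hk0⟩ := hl
    rw [if_pos ⟨k0, hk0⟩]
    have : univ.filter (fun k : Fin 3 => t k = l) = {k0} := by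
      ext k
      simp only [Finset.mem_filter, Finset.mem_univ, true_and, Finset.mem_singleton]
      constructor
      · intro h
        exact ht (h.trans hk0.symm)
      · intro h
        rw [h, hk0]
    rw [this, Finset.card_singleton]
  · rw [if_neg hl]
    rw [Finset.card_eq_zero]
    ext k
    simp only [Finset.mem_filter, Finset.mem_univ, true_and, Finset.notMem_empty, iff_false]
    intro h
    exact hl ⟨k, h⟩

/-- Transport of the cover inequality along an equality of the column sums. -/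
theorem triCover_transport {n : ℕ} {r₀ r₁ : Fin 3 → ℕ} {c₀ : Fin n → ℕ} (c₁ c₂ : Fin n → ℕ)
    (hc : c₁ = c₂)
    (S₁ : Equiv.Perm (Fin 3) → Omega r₀ c₀ → Omega r₁ c₁)
    (S₂ : Equiv.Perm (Fin 3) → Omega r₀ c₀ → Omega r₁ c₂)
    (hS : ∀ σ η, (S₁ σ η).1 = (S₂ σ η).1)
    (h1 : ∀ f : Omega r₁ c₁ → ℝ,
      ∑ σ : Equiv.Perm (Fin 3), Vale.Agent.H41.CT.gap3 (fun Y : Omega r₀ c₀ => f (S₁ σ Y))
        ≤ 6 * Vale.Agent.H41.CT.gap3 f) :
    ∀ f : Omega r₁ c₂ → ℝ,
      ∑ σ : Equiv.Perm (Fin 3), Vale.Agent.H25.CT.rowDefect (fun Y : Omega r₀ c₀ => f (S₂ σ Y))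
        ≤ 6 * Vale.Agent.H25.CT.rowDefect f := by
  subst hc
  have hSS : S₁ = S₂ := funext fun σ => funext fun η => Subtype.ext (hS σ η)
  subst hSS
  exact h1

/-- helper41's hypothesis implies helper25's form of it. -/
theorem triCover25_of_triCover41 (h : Vale.Agent.H41.CT.TriCoverHyp) :
    Vale.Agent.H25.CT.TriCoverHyp := by
  intro n r c t ht f
  exact triCover_transport (Vale.Agent.H41.CT.colUp c t) _ (colUp_eq c t ht)
    (fun σ η => Vale.Agent.H41.CT.addPerm t σ η) (fun σ η => Vale.Agent.H25.CT.triShift t ht σ η)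
    (fun σ η => rfl) (fun f' => h n r c t ht f') f

/-- The canonical triangle-cover hypothesis implies the three-row gap hypothesis. -/
theorem threeRowGap_of_triCover41 (h : Vale.Agent.H41.CT.TriCoverHyp) : ThreeRowGap :=
  Vale.Agent.H25.CT.threeRowGap_of_triCover (triCover25_of_triCover41 h)

/-- The canonical triangle-cover hypothesis implies the mixing time bound of the lazy `2 x 2`
heat-bath chain for all `m, n ≥ 2` and all margins. -/
theorem block_mixing_time_of_triCover41 (hyp : Vale.Agent.H41.CT.TriCoverHyp) (m n : ℕ)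
    (hm : 2 ≤ m) (hn : 2 ≤ n) (r : Fin m → ℕ) (c : Fin n → ℕ) (ε : ℝ) (hε : 0 < ε) (t : ℕ)
    (ht : (m : ℝ) * (m - 1) * ((n : ℝ) * (n - 1)) / 2
      * ((m : ℝ) * ∑ j, Real.log ((c j : ℝ) + 1) + 2 * Real.log (1 / ε)) ≤ t)
    (X : Omega r c) :
    (1 / 2 : ℝ) * ∑ Y, |(((1 / 2 : ℝ) • (1 + blockChain r c)) ^ t) X Y
        - 1 / (Fintype.card (Omega r c) : ℝ)| ≤ ε :=
  block_mixing_time (Vale.Agent.H91.CT.tripleHyp_of_threeRowGap (threeRowGap_of_triCover41 hyp))
    hm hn r c ε hε t ht X

end Vale.Agent.H23.CT
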