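import Vale.Agent.H23.CT.TriCover

/-!
# P328: base case of the triangle-cover induction, a row of sum zero

If one of the three row sums is `0`, all tables of the class have the same (zero) row `k0`, so
the conditional expectation given that row is the mean and the defect `gapDefect f` is the sum
of the two other mean conditional variances, a sum of squares.
-/

namespace Vale.Agent.H23.CT

open Finset Vale.Agent.H90 Vale.Agent.H88.CT

variable {n : ℕ}

/-- If one row sum is `0`, the defect is nonnegative. -/
theorem gapDefect_nonneg_of_row_zero {r : Fin 3 → ℕ} {c : Fin n → ℕ} (k0 : Fin 3)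
    (hk0 : r k0 = 0) (f : Omega r c → ℝ) : 0 ≤ gapDefect f := by
  have hrow : ∀ X Y : Omega r c, X.1 k0 = Y.1 k0 := by
    intro X Y
    funext j
    have h1 := entry_le_row X k0 j
    have h2 := entry_le_row Y k0 j
    rw [hk0] at h1 h2
    omega
  have havg : ∀ X : Omega r c, avgRel (fun X Y : Omega r c => X.1 k0 = Y.1 k0) f X
      = (∑ Y, f Y) / (Fintype.card (Omega r c) : ℝ) := by
    intro X
    unfold avgRel
    rw [Finset.filter_true_of_mem (fun Y _ => hrow X Y), Finset.card_univ]
  have hk : ∑ X, (f X - avgRel (fun X Y : Omega r c => X.1 k0 = Y.1 k0) f X) ^ 2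
      = ∑ X, (f X - (∑ Y, f Y) / (Fintype.card (Omega r c) : ℝ)) ^ 2 := by
    refine Finset.sum_congr rfl (fun X _ => ?_)
    rw [havg X]
  have hrest : 0 ≤ ∑ k ∈ univ.erase k0,
      ∑ X, (f X - avgRel (fun X Y : Omega r c => X.1 k = Y.1 k) f X) ^ 2 :=
    Finset.sum_nonneg (fun k _ => Finset.sum_nonneg (fun X _ => sq_nonneg _))
  unfold gapDefect
  rw [← Finset.add_sum_erase univ _ (Finset.mem_univ k0), hk]
  linarith

end Vale.Agent.H23.CT
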