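import Vale.Agent.H23.CT.BoxGap
import Vale.Agent.H88.CT.Defs

/-!
# P328: the sharp gap for contingency tables with two columns

A table with `m` rows and two columns is determined by its first column, a point of the
box-slice class `Box m r (c 0)`, and `X k = Y k` (same `k`-th row) iff the first columns agree
at `k`.  So `box_gap` gives, on every class `Omega r c` of `m x 2` tables,
`(m - 2) Var f ≤ ∑ k, E Var(f | row k)`; for `m = 3` this is the inequality of `ThreeRowGap`
for two columns.
-/

namespace Vale.Agent.H23.CT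

open Finset Vale.Agent.H90 Vale.Agent.H88.CT Vale.Agent.H14.CT

/-- In a table with two columns a row sum is the sum of the two entries of the row. -/
theorem twocol_r {m : ℕ} {r : Fin m → ℕ} {c : Fin 2 → ℕ} (X : Omega r c) (k : Fin m) :
    r k = X.1 k 0 + X.1 k 1 := by
  have h := X.2.1 k
  rw [Fin.sum_univ_two] at h
  exact h.symm

/-- The margins of a nonempty class of tables with two columns have the same total. -/
theorem twocol_total {m : ℕ} {r : Fin m → ℕ} {c : Fin 2 → ℕ} (X : Omega r c) :
    ∑ k, r k = c 0 + c 1 := by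
  rw [← X.2.2 0, ← X.2.2 1, ← Finset.sum_add_distrib]
  exact Finset.sum_congr rfl (fun k _ => twocol_r X k)

theorem twocol_tab_aux {m : ℕ} {r : Fin m → ℕ} {c : Fin 2 → ℕ} (hr : ∑ k, r k = c 0 + c 1)
    (z : Box m r (c 0)) :
    (∀ k : Fin m, ∑ j : Fin 2, (if j = 0 then z.1 k else r k - z.1 k) = r k) ∧
      ∀ j : Fin 2, ∑ k, (if j = 0 then z.1 k else r k - z.1 k) = c j := by
  constructor
  · intro k
    rw [Fin.sum_univ_two]
    have h10 : ¬ ((1 : Fin 2) = 0) := by decide
    rw [if_pos rfl, if_neg h10]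
    have := z.2.1 k
    omega
  · intro j
    fin_cases j
    · simp only [Fin.zero_eta, if_true]
      exact z.2.2
    · have h10 : ¬ ((1 : Fin 2) = 0) := by decide
      simp only [Fin.mk_one, if_neg h10]
      have h1 : ∑ k, (r k - z.1 k) + ∑ k, z.1 k = ∑ k, r k := by
        rw [← Finset.sum_add_distrib]
        exact Finset.sum_congr rfl (fun k _ => Nat.sub_add_cancel (z.2.1 k))
      rw [z.2.2] at h1
      omega

/-- The table with two columns whose first column is `z`. -/
def twocol_tab {m : ℕ} {r : Fin m → ℕ} {c : Fin 2 → ℕ} (hr : ∑ k, r k = c 0 + c 1)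
    (z : Box m r (c 0)) : Omega r c :=
  ⟨fun k j => if j = 0 then z.1 k else r k - z.1 k, twocol_tab_aux hr z⟩

/-- The first column of a table with two columns. -/
def twocol_col {m : ℕ} {r : Fin m → ℕ} {c : Fin 2 → ℕ} (X : Omega r c) : Box m r (c 0) :=
  ⟨fun k => X.1 k 0, fun k => entry_le_row X k 0, X.2.2 0⟩

theorem twocol_col_val {m : ℕ} {r : Fin m → ℕ} {c : Fin 2 → ℕ} (X : Omega r c) (k : Fin m) :
    (twocol_col X).1 k = X.1 k 0 := rfl

theorem twocol_tab_zero {m : ℕ} {r : Fin m → ℕ} {c : Fin 2 → ℕ} (hr : ∑ k, r k = c 0 + c 1)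
    (z : Box m r (c 0)) (k : Fin m) : (twocol_tab hr z).1 k 0 = z.1 k := by
  unfold twocol_tab
  simp

theorem twocol_tab_one {m : ℕ} {r : Fin m → ℕ} {c : Fin 2 → ℕ} (hr : ∑ k, r k = c 0 + c 1)
    (z : Box m r (c 0)) (k : Fin m) : (twocol_tab hr z).1 k 1 = r k - z.1 k := by
  unfold twocol_tab
  simp

/-- Tables with two columns correspond to their first columns. -/
def twocol_equiv {m : ℕ} {r : Fin m → ℕ} {c : Fin 2 → ℕ} (hr : ∑ k, r k = c 0 + c 1) :
    Omega r c ≃ Box m r (c 0) where
  toFun := twocol_col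
  invFun := twocol_tab hr
  left_inv X := by
    apply Subtype.ext
    funext k j
    fin_cases j
    · exact twocol_tab_zero hr (twocol_col X) k
    · have h1 := twocol_tab_one hr (twocol_col X) k
      have h2 := twocol_r X k
      rw [twocol_col_val] at h1
      simp only [Fin.mk_one]
      omega
  right_inv z := by
    apply Subtype.ext
    funext k
    exact twocol_tab_zero hr z k

theorem twocol_equiv_val {m : ℕ} {r : Fin m → ℕ} {c : Fin 2 → ℕ} (hr : ∑ k, r k = c 0 + c 1)
    (X : Omega r c) (k : Fin m) : (twocol_equiv hr X).1 k = X.1 k 0 := rfl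

/-- Two tables with two columns have the same row `k` iff their first columns agree at `k`. -/
theorem twocol_rel {m : ℕ} {r : Fin m → ℕ} {c : Fin 2 → ℕ} (hr : ∑ k, r k = c 0 + c 1)
    (k : Fin m) (X Y : Omega r c) :
    X.1 k = Y.1 k ↔ (twocol_equiv hr X).1 k = (twocol_equiv hr Y).1 k := by
  rw [twocol_equiv_val, twocol_equiv_val]
  constructor
  · intro h
    rw [h]
  · intro h
    funext j
    have hX := twocol_r X k
    have hY := twocol_r Y k
    fin_cases j
    · exact h
    · simp only [Fin.mk_one]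
      omega

/-- Averaging operators correspond under a bijection that carries one relation to the other. -/
theorem twocol_avgRel_equiv {α β : Type*} [Fintype α] [Fintype β] (e : α ≃ β)
    (ra : α → α → Prop) [DecidableRel ra] (rb : β → β → Prop) [DecidableRel rb]
    (h : ∀ x y, ra x y ↔ rb (e x) (e y)) (g : β → ℝ) (x : α) :
    avgRel ra (fun y => g (e y)) x = avgRel rb g (e x) := by
  unfold avgRel
  have h1 : ∑ y ∈ univ.filter (fun y => ra x y), g (e y)
      = ∑ w ∈ univ.filter (fun w => rb (e x) w), g w := by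
    refine Finset.sum_equiv e ?_ ?_
    · intro y
      simp only [Finset.mem_filter, Finset.mem_univ, true_and]
      exact h x y
    · intro y _
      rfl
  have h2 : (univ.filter (fun y => ra x y)).card = (univ.filter (fun w => rb (e x) w)).card := by
    refine Finset.card_equiv e ?_
    intro y
    simp only [Finset.mem_filter, Finset.mem_univ, true_and]
    exact h x y
  rw [h1, h2]

/-- The sharp gap on classes of `m x 2` contingency tables. -/
theorem twoCol_gap (m : ℕ) (r : Fin m → ℕ) (c : Fin 2 → ℕ) (f : Omega r c → ℝ) :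
    ((m : ℝ) - 2) * ∑ X, (f X - (∑ Y, f Y) / (Fintype.card (Omega r c) : ℝ)) ^ 2
      ≤ ∑ k : Fin m, ∑ X, (f X - avgRel (fun X Y : Omega r c => X.1 k = Y.1 k) f X) ^ 2 := by
  by_cases hne : Nonempty (Omega r c)
  · obtain ⟨X0⟩ := hne
    have hr : ∑ k, r k = c 0 + c 1 := twocol_total X0
    set e := twocol_equiv hr with he
    set g : Box m r (c 0) → ℝ := fun z => f (e.symm z) with hg
    have key := box_gap m r (c 0) g
    have hf : ∀ X, f X = g (e X) := fun X => by
      rw [hg]
      simp
    have hsum : ∑ w, g w = ∑ Y, f Y := Equiv.sum_comp e.symm f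
    have hcard : Fintype.card (Box m r (c 0)) = Fintype.card (Omega r c) :=
      (Fintype.card_congr e).symm
    have hL : ∑ z, (g z - (∑ w, g w) / (Fintype.card (Box m r (c 0)) : ℝ)) ^ 2
        = ∑ X, (f X - (∑ Y, f Y) / (Fintype.card (Omega r c) : ℝ)) ^ 2 := by
      rw [hsum, hcard, ← Equiv.sum_comp e]
      refine Finset.sum_congr rfl (fun X _ => ?_)
      rw [hf X]
    have hR : ∀ k : Fin m,
        ∑ z, (g z - avgRel (fun z w : Box m r (c 0) => z.1 k = w.1 k) g z) ^ 2
          = ∑ X, (f X - avgRel (fun X Y : Omega r c => X.1 k = Y.1 k) f X) ^ 2 := by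
      intro k
      rw [← Equiv.sum_comp e]
      refine Finset.sum_congr rfl (fun X _ => ?_)
      have h1 := twocol_avgRel_equiv e (fun X Y : Omega r c => X.1 k = Y.1 k)
        (fun z w : Box m r (c 0) => z.1 k = w.1 k) (fun X Y => twocol_rel hr k X Y) g X
      have h2 : (fun y => g (e y)) = f := by
        funext y
        exact (hf y).symm
      rw [h2] at h1
      rw [h1, hf X]
    rw [hL, Finset.sum_congr rfl (fun k _ => hR k)] at key
    exact key
  · have : IsEmpty (Omega r c) := not_nonempty_iff.1 hne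
    simp

/-- The inequality of `ThreeRowGap` holds on every class of `3 x 2` contingency tables. -/
theorem threeRowGap_two_columns (r : Fin 3 → ℕ) (c : Fin 2 → ℕ) (f : Omega r c → ℝ) :
    ∑ X, (f X - (∑ Y, f Y) / (Fintype.card (Omega r c) : ℝ)) ^ 2
      ≤ ∑ k : Fin 3, ∑ X, (f X - avgRel (fun X Y : Omega r c => X.1 k = Y.1 k) f X) ^ 2 := by
  have h := twoCol_gap 3 r c f
  have h3 : ((3 : ℕ) : ℝ) - 2 = 1 := by norm_num
  rw [h3, one_mul] at h
  exact h

end Vale.Agent.H23.CT
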