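import Vale.Agent.H23.CT.TriCover
import Vale.Agent.H23.CT.TwoCol

/-!
# P328: base case of the triangle-cover induction, at most two nonzero columns

If there are no three distinct columns with sums `≥ 1`, every table of the class is supported
on two columns `a, b` and is determined by its column `a`, a point of the box-slice class
`Box 3 r (c a)`; two tables have the same row `k` iff these points agree at `k`.  The defect is
nonnegative by the two-row theorem `box_gap` with three coordinates.
-/

namespace Vale.Agent.H23.CT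

open Finset Vale.Agent.H90 Vale.Agent.H88.CT Vale.Agent.H14.CT

variable {n : ℕ}

/-- If all tables of the class have the same row `k0`, the defect is nonnegative. -/
theorem tribase2_of_row_const {r : Fin 3 → ℕ} {c : Fin n → ℕ} (k0 : Fin 3)
    (hrow : ∀ X Y : Omega r c, X.1 k0 = Y.1 k0) (f : Omega r c → ℝ) : 0 ≤ gapDefect f := by
  have havg : ∀ X : Omega r c, avgRel (fun X Y : Omega r c => X.1 k0 = Y.1 k0) f X
      = (∑ Y, f Y) / (Fintype.card (Omega r c) : ℝ) := by
    intro X
    unfold avgRel
    have hfilt : univ.filter (fun Y : Omega r c => X.1 k0 = Y.1 k0) = univ := by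
      apply Finset.filter_true_of_mem
      intro Y _
      exact hrow X Y
    rw [hfilt, Finset.card_univ]
  unfold gapDefect
  rw [← Finset.add_sum_erase univ _ (Finset.mem_univ k0)]
  have h0 : ∑ X, (f X - avgRel (fun X Y : Omega r c => X.1 k0 = Y.1 k0) f X) ^ 2
      = ∑ X, (f X - (∑ Y, f Y) / (Fintype.card (Omega r c) : ℝ)) ^ 2 :=
    Finset.sum_congr rfl (fun X _ => by rw [havg X])
  rw [h0]
  have h1 : 0 ≤ ∑ k ∈ univ.erase k0,
      ∑ X, (f X - avgRel (fun X Y : Omega r c => X.1 k = Y.1 k) f X) ^ 2 :=
    Finset.sum_nonneg (fun k _ => Finset.sum_nonneg (fun X _ => sq_nonneg _))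
  linarith

/-- Entries in a column of sum zero vanish. -/
theorem tribase2_zero {r : Fin 3 → ℕ} {c : Fin n → ℕ} (X : Omega r c) (k : Fin 3) (j : Fin n)
    (hj : c j = 0) : X.1 k j = 0 := by
  have := entry_le_col X k j
  omega

/-- With at most one column of positive sum, the entry in such a column is the row sum. -/
theorem tribase2_one_col_entry {r : Fin 3 → ℕ} {c : Fin n → ℕ}
    (h1 : ∀ a b : Fin n, 1 ≤ c a → 1 ≤ c b → a = b) (X : Omega r c) (k : Fin 3) (j : Fin n)
    (hj : ¬ c j = 0) : X.1 k j = r k := by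
  rw [← X.2.1 k]
  symm
  apply Finset.sum_eq_single j
  · intro j' _ hj'
    apply tribase2_zero X k j'
    by_contra hc
    exact hj' (h1 j' j (by omega) (by omega))
  · intro hn
    exact (hn (Finset.mem_univ j)).elim

/-- With at most one column of positive sum the class has at most one table. -/
theorem tribase2_one_col {r : Fin 3 → ℕ} {c : Fin n → ℕ}
    (h1 : ∀ a b : Fin n, 1 ≤ c a → 1 ≤ c b → a = b) (X Y : Omega r c) (k : Fin 3) :
    X.1 k = Y.1 k := by
  funext j
  by_cases hj : c j = 0
  · rw [tribase2_zero X k j hj, tribase2_zero Y k j hj]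
  · rw [tribase2_one_col_entry h1 X k j hj, tribase2_one_col_entry h1 Y k j hj]

/-- In a table supported on the columns `a ≠ b`, a row sum is the sum of the two entries. -/
theorem tribase2_r {r : Fin 3 → ℕ} {c : Fin n → ℕ} {a b : Fin n} (hab : a ≠ b)
    (hz : ∀ j, j ≠ a → j ≠ b → c j = 0) (X : Omega r c) (k : Fin 3) :
    r k = X.1 k a + X.1 k b := by
  rw [← X.2.1 k]
  exact Fintype.sum_eq_add a b hab (fun j hj => tribase2_zero X k j (hz j hj.1 hj.2))

/-- The margins of a nonempty class supported on the columns `a ≠ b` have the same total. -/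
theorem tribase2_total {r : Fin 3 → ℕ} {c : Fin n → ℕ} {a b : Fin n} (hab : a ≠ b)
    (hz : ∀ j, j ≠ a → j ≠ b → c j = 0) (X : Omega r c) : ∑ k, r k = c a + c b := by
  rw [← X.2.2 a, ← X.2.2 b, ← Finset.sum_add_distrib]
  exact Finset.sum_congr rfl (fun k _ => tribase2_r hab hz X k)

theorem tribase2_tab_aux {r : Fin 3 → ℕ} {c : Fin n → ℕ} {a b : Fin n} (hab : a ≠ b)
    (hz : ∀ j, j ≠ a → j ≠ b → c j = 0) (hr : ∑ k, r k = c a + c b) (z : Box 3 r (c a)) :
    (∀ k : Fin 3,
        ∑ j : Fin n, (if j = a then z.1 k else if j = b then r k - z.1 k else 0) = r k) ∧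
      ∀ j : Fin n,
        ∑ k : Fin 3, (if j = a then z.1 k else if j = b then r k - z.1 k else 0) = c j := by
  constructor
  · intro k
    rw [Fintype.sum_eq_add a b hab]
    · rw [if_pos rfl, if_neg hab.symm, if_pos rfl]
      have := z.2.1 k
      omega
    · intro j hj
      rw [if_neg hj.1, if_neg hj.2]
  · intro j
    by_cases hja : j = a
    · simp only [if_pos hja]
      rw [hja]
      exact z.2.2
    · by_cases hjb : j = b
      · simp only [if_neg hja, if_pos hjb]
        have h1 : ∑ k, (r k - z.1 k) + ∑ k, z.1 k = ∑ k, r k := by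
          rw [← Finset.sum_add_distrib]
          exact Finset.sum_congr rfl (fun k _ => Nat.sub_add_cancel (z.2.1 k))
        rw [z.2.2] at h1
        rw [hjb]
        omega
      · simp only [if_neg hja, if_neg hjb, Finset.sum_const_zero]
        exact (hz j hja hjb).symm

/-- The table supported on the columns `a ≠ b` whose column `a` is `z`. -/
def tribase2_tab {r : Fin 3 → ℕ} {c : Fin n → ℕ} {a b : Fin n} (hab : a ≠ b)
    (hz : ∀ j, j ≠ a → j ≠ b → c j = 0) (hr : ∑ k, r k = c a + c b) (z : Box 3 r (c a)) :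
    Omega r c :=
  ⟨fun k j => if j = a then z.1 k else if j = b then r k - z.1 k else 0,
    tribase2_tab_aux hab hz hr z⟩

/-- The column `a` of a table. -/
def tribase2_col {r : Fin 3 → ℕ} {c : Fin n → ℕ} (a : Fin n) (X : Omega r c) : Box 3 r (c a) :=
  ⟨fun k => X.1 k a, fun k => entry_le_row X k a, X.2.2 a⟩

/-- Tables supported on the columns `a ≠ b` correspond to their columns `a`. -/
def tribase2_equiv {r : Fin 3 → ℕ} {c : Fin n → ℕ} {a b : Fin n} (hab : a ≠ b)
    (hz : ∀ j, j ≠ a → j ≠ b → c j = 0) (hr : ∑ k, r k = c a + c b) :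
    Omega r c ≃ Box 3 r (c a) where
  toFun := tribase2_col a
  invFun := tribase2_tab hab hz hr
  left_inv X := by
    apply Subtype.ext
    funext k j
    show (if j = a then X.1 k a else if j = b then r k - X.1 k a else 0) = X.1 k j
    by_cases hja : j = a
    · rw [if_pos hja, hja]
    · by_cases hjb : j = b
      · rw [if_neg hja, if_pos hjb, hjb]
        have := tribase2_r hab hz X k
        omega
      · rw [if_neg hja, if_neg hjb]
        exact (tribase2_zero X k j (hz j hja hjb)).symm
  right_inv z := by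
    apply Subtype.ext
    funext k
    show (if a = a then z.1 k else if a = b then r k - z.1 k else 0) = z.1 k
    rw [if_pos rfl]

/-- Two tables supported on the columns `a ≠ b` have the same row `k` iff their columns `a`
agree at `k`. -/
theorem tribase2_rel {r : Fin 3 → ℕ} {c : Fin n → ℕ} {a b : Fin n} (hab : a ≠ b)
    (hz : ∀ j, j ≠ a → j ≠ b → c j = 0) (hr : ∑ k, r k = c a + c b) (k : Fin 3)
    (X Y : Omega r c) :
    X.1 k = Y.1 k ↔ (tribase2_equiv hab hz hr X).1 k = (tribase2_equiv hab hz hr Y).1 k := by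
  show X.1 k = Y.1 k ↔ X.1 k a = Y.1 k a
  constructor
  · intro h
    rw [h]
  · intro h
    funext j
    by_cases hja : j = a
    · rw [hja]
      exact h
    · by_cases hjb : j = b
      · rw [hjb]
        have hX := tribase2_r hab hz X k
        have hY := tribase2_r hab hz Y k
        omega
      · rw [tribase2_zero X k j (hz j hja hjb), tribase2_zero Y k j (hz j hja hjb)]

/-- Transfer of the two-row theorem with three coordinates along a bijection with a box-slice
class that carries the row relations to the coordinate relations. -/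
theorem tribase2_transfer {r : Fin 3 → ℕ} {c : Fin n → ℕ} {ρ : ℕ} (e : Omega r c ≃ Box 3 r ρ)
    (hrel : ∀ (k : Fin 3) (X Y : Omega r c), X.1 k = Y.1 k ↔ (e X).1 k = (e Y).1 k)
    (f : Omega r c → ℝ) : 0 ≤ gapDefect f := by
  set g : Box 3 r ρ → ℝ := fun z => f (e.symm z) with hg
  have key := box_gap 3 r ρ g
  have hf : ∀ X, f X = g (e X) := fun X => by
    rw [hg]
    simp
  have hsum : ∑ w, g w = ∑ Y, f Y := Equiv.sum_comp e.symm f
  have hcard : Fintype.card (Box 3 r ρ) = Fintype.card (Omega r c) :=
    (Fintype.card_congr e).symm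
  have hL : ∑ z, (g z - (∑ w, g w) / (Fintype.card (Box 3 r ρ) : ℝ)) ^ 2
      = ∑ X, (f X - (∑ Y, f Y) / (Fintype.card (Omega r c) : ℝ)) ^ 2 := by
    rw [hsum, hcard, ← Equiv.sum_comp e]
    refine Finset.sum_congr rfl (fun X _ => ?_)
    rw [hf X]
  have hR : ∀ k : Fin 3,
      ∑ z, (g z - avgRel (fun z w : Box 3 r ρ => z.1 k = w.1 k) g z) ^ 2
        = ∑ X, (f X - avgRel (fun X Y : Omega r c => X.1 k = Y.1 k) f X) ^ 2 := by
    intro k
    rw [← Equiv.sum_comp e]
    refine Finset.sum_congr rfl (fun X _ => ?_)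
    have h1 := twocol_avgRel_equiv e (fun X Y : Omega r c => X.1 k = Y.1 k)
      (fun z w : Box 3 r ρ => z.1 k = w.1 k) (fun X Y => hrel k X Y) g X
    have h2 : (fun y => g (e y)) = f := by
      funext y
      exact (hf y).symm
    rw [h2] at h1
    rw [h1, hf X]
  rw [hL, Finset.sum_congr rfl (fun k _ => hR k)] at key
  have h3 : ((3 : ℕ) : ℝ) - 2 = 1 := by norm_num
  rw [h3, one_mul] at key
  unfold gapDefect
  linarith

/-- Three distinct columns give an injective triple. -/
theorem tribase2_inj {a b j : Fin n} (hab : a ≠ b) (hja : j ≠ a) (hjb : j ≠ b) :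
    Function.Injective (fun k : Fin 3 => if k = 0 then a else if k = 1 then b else j) := by
  intro x y hxy
  fin_cases x <;> fin_cases y <;> simp at hxy <;> first | rfl | (exfalso; tauto)

/-- If there are no three distinct columns with sums `≥ 1`, the defect is nonnegative. -/
theorem gapDefect_nonneg_of_few_cols {r : Fin 3 → ℕ} {c : Fin n → ℕ}
    (h : ¬ ∃ t : Fin 3 → Fin n, Function.Injective t ∧ ∀ k, 1 ≤ c (t k))
    (f : Omega r c → ℝ) : 0 ≤ gapDefect f := by
  by_cases h2 : ∃ a b : Fin n, a ≠ b ∧ 1 ≤ c a ∧ 1 ≤ c b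
  · obtain ⟨a, b, hab, ha, hb⟩ := h2
    have hz : ∀ j, j ≠ a → j ≠ b → c j = 0 := by
      intro j hja hjb
      by_contra hj
      apply h
      refine ⟨fun k : Fin 3 => if k = 0 then a else if k = 1 then b else j,
        tribase2_inj hab hja hjb, ?_⟩
      intro k
      fin_cases k
      · simpa using ha
      · simpa using hb
      · have hj1 : 1 ≤ c j := by omega
        simpa using hj1
    by_cases hne : Nonempty (Omega r c)
    · obtain ⟨X0⟩ := hne
      have hr := tribase2_total hab hz X0
      exact tribase2_transfer (tribase2_equiv hab hz hr)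
        (fun k X Y => tribase2_rel hab hz hr k X Y) f
    · have : IsEmpty (Omega r c) := not_nonempty_iff.1 hne
      simp [gapDefect]
  · have h1 : ∀ a b : Fin n, 1 ≤ c a → 1 ≤ c b → a = b := by
      intro a b ha hb
      by_contra hab
      exact h2 ⟨a, b, hab, ha, hb⟩
    exact tribase2_of_row_const 0 (fun X Y => tribase2_one_col h1 X Y 0) f

end Vale.Agent.H23.CT
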