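import Vale.Agent.H23.CT.TriBase0
import Vale.Agent.H23.CT.TriBase2

/-!
# P328: the triangle-cover hypothesis implies the three-row gap

`threeRowGap_of_triCover : TriCoverHyp → ThreeRowGap`, by induction on the total of the
margins: a class with a zero row sum or without three nonzero columns is a base case
(`TriBase0.lean`, `TriBase2.lean`); otherwise the hypothesis bounds the defect from below by an average of
defects on the peeled class, whose total is smaller by three.
-/

namespace Vale.Agent.H23.CT

open Finset Vale.Agent.H90 Vale.Agent.H88.CT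

theorem threeRowGap_iff_gapDefect :
    ThreeRowGap ↔ ∀ (n : ℕ) (r : Fin 3 → ℕ) (c : Fin n → ℕ) (f : Omega r c → ℝ),
      0 ≤ gapDefect f := by
  unfold ThreeRowGap gapDefect
  constructor
  · intro h n r c f
    exact sub_nonneg.2 (h n r c f)
  · intro h n r c f
    exact sub_nonneg.1 (h n r c f)

/-- The common induction, primal form: if on every class with all row sums `≥ 1` and three
nonzero columns the defect of every function is nonnegative as soon as this holds on all classes
of smaller total, then `ThreeRowGap` holds.  (The classes with a zero row sum or without three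
nonzero columns are the base cases.) -/
theorem threeRowGap_of_primal_step
    (step : ∀ (N : ℕ),
      (∀ (n : ℕ) (r : Fin 3 → ℕ) (c : Fin n → ℕ), ∑ k, r k < N →
        ∀ f : Omega r c → ℝ, 0 ≤ gapDefect f) →
      ∀ (n : ℕ) (r : Fin 3 → ℕ) (c : Fin n → ℕ), ∑ k, r k = N → (∀ k, 1 ≤ r k) →
        (∃ t : Fin 3 → Fin n, Function.Injective t ∧ ∀ k, 1 ≤ c (t k)) →
        ∀ f : Omega r c → ℝ, 0 ≤ gapDefect f) :
    ThreeRowGap := by
  rw [threeRowGap_iff_gapDefect]
  have key : ∀ (N : ℕ) (n : ℕ) (r : Fin 3 → ℕ) (c : Fin n → ℕ), ∑ k, r k = N →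
      ∀ f : Omega r c → ℝ, 0 ≤ gapDefect f := by
    intro N
    induction N using Nat.strong_induction_on with
    | _ N ih =>
      intro n r c hN f
      by_cases h0 : ∃ k, r k = 0
      · obtain ⟨k0, hk0⟩ := h0
        exact gapDefect_nonneg_of_row_zero k0 hk0 f
      · have hr : ∀ k, 1 ≤ r k := by
          intro k
          by_contra hk
          exact h0 ⟨k, by omega⟩
        by_cases h3 : ∃ t : Fin 3 → Fin n, Function.Injective t ∧ ∀ k, 1 ≤ c (t k)
        · exact step N (fun n' r' c' hlt f' => ih _ hlt n' r' c' rfl f') n r c hN hr h3 f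
        · exact gapDefect_nonneg_of_few_cols h3 f
  intro n r c f
  exact key _ n r c rfl f

/-- The triangle-cover hypothesis implies the three-row gap hypothesis. -/
theorem threeRowGap_of_triCover (h : TriCoverHyp) : ThreeRowGap := by
  rw [threeRowGap_iff_gapDefect]
  have key : ∀ (N : ℕ) (n : ℕ) (r : Fin 3 → ℕ) (c : Fin n → ℕ), ∑ k, r k = N →
      ∀ f : Omega r c → ℝ, 0 ≤ gapDefect f := by
    intro N
    induction N using Nat.strong_induction_on with
    | _ N ih =>
      intro n r c hN f
      by_cases h0 : ∃ k, r k = 0
      · obtain ⟨k0, hk0⟩ := h0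
        exact gapDefect_nonneg_of_row_zero k0 hk0 f
      · have hr : ∀ k, 1 ≤ r k := by
          intro k
          by_contra hk
          exact h0 ⟨k, by omega⟩
        by_cases h3 : ∃ t : Fin 3 → Fin n, Function.Injective t ∧ ∀ k, 1 ≤ c (t k)
        · obtain ⟨t, ht, hc, hineq⟩ := h n r c hr h3
          have hsum : ∑ k, peelRow r k < N := by
            rw [← hN, Fin.sum_univ_three, Fin.sum_univ_three]
            have h0' := hr 0
            have h1' := hr 1
            have h2' := hr 2
            simp only [peelRow]
            omega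
          have hpos : 0 ≤ (1 / 6 : ℝ) * ∑ τ : Equiv.Perm (Fin 3),
              gapDefect (fun η : Omega (peelRow r) (peelCol c t) =>
                f (triShift t hr ht hc τ η)) := by
            refine mul_nonneg (by norm_num) (Finset.sum_nonneg fun τ _ => ?_)
            exact ih _ hsum n (peelRow r) (peelCol c t) rfl _
          exact le_trans hpos (hineq f)
        · exact gapDefect_nonneg_of_few_cols h3 f
  intro n r c f
  exact key _ n r c rfl f

end Vale.Agent.H23.CT
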