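import Vale.Agent.H88.CT.Defs

/-!
# P328: the triangle-cover hypothesis for three-rowed contingency tables (definitions)

`gapDefect f` is the defect of the three-row gap inequality on a class of `3 x n` tables:
the sum over the three rows of the mean conditional variance of `f` given the row, minus the
variance of `f` (sums over the class, not normalised).  `ThreeRowGap` says `0 ≤ gapDefect f`.

For a class with all row sums `≥ 1` and three distinct columns `t 0, t 1, t 2` with column sums
`≥ 1`, the peeled class has margins `r - (1,1,1)` and `c - e_{t 0} - e_{t 1} - e_{t 2}`; for a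
permutation `τ` of the rows, `triShift t .. τ` embeds the peeled class into the class by adding
one unit in the cells `(k, t (τ k))`.  `TriCoverHyp` (helper41's primal TRI-COVER): in every
such class there is a triple of columns such that the defect of `f` is at least the average over
the six embeddings of the defects of the restrictions of `f` to the six copies of the peeled
class.
-/

namespace Vale.Agent.H23.CT

open Finset Vale.Agent.H90 Vale.Agent.H88.CT

variable {n : ℕ}

/-- The defect of the three-row gap inequality: `∑ k, E Var(f | row k) - Var f` (sums over the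
class, not normalised). -/
noncomputable def gapDefect {r : Fin 3 → ℕ} {c : Fin n → ℕ} (f : Omega r c → ℝ) : ℝ :=
  ∑ k : Fin 3, ∑ X, (f X - avgRel (fun X Y : Omega r c => X.1 k = Y.1 k) f X) ^ 2
    - ∑ X, (f X - (∑ Y, f Y) / (Fintype.card (Omega r c) : ℝ)) ^ 2

/-- Row sums of the peeled class. -/
def peelRow (r : Fin 3 → ℕ) : Fin 3 → ℕ := fun k => r k - 1

/-- Column sums of the peeled class. -/
def peelCol (c : Fin n → ℕ) (t : Fin 3 → Fin n) : Fin n → ℕ :=
  fun j => c j - if ∃ k, t k = j then 1 else 0

theorem triShift_aux {r : Fin 3 → ℕ} {c : Fin n → ℕ} (t : Fin 3 → Fin n)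
    (hr : ∀ k, 1 ≤ r k) (ht : Function.Injective t) (hc : ∀ k, 1 ≤ c (t k))
    (τ : Equiv.Perm (Fin 3)) (η : Omega (peelRow r) (peelCol c t)) :
    (∀ k, ∑ j, (η.1 k j + if j = t (τ k) then 1 else 0) = r k) ∧
      ∀ j, ∑ k, (η.1 k j + if j = t (τ k) then 1 else 0) = c j := by
  constructor
  · intro k
    rw [Finset.sum_add_distrib, η.2.1 k, Finset.sum_ite_eq' univ (t (τ k)) (fun _ => 1)]
    simp only [Finset.mem_univ, if_true, peelRow]
    have := hr k
    omega
  · intro j
    rw [Finset.sum_add_distrib, η.2.2 j]
    have h1 : ∑ k : Fin 3, (if j = t (τ k) then 1 else 0)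
        = ∑ k : Fin 3, (if j = t k then 1 else 0) :=
      Equiv.sum_comp τ (fun k => if j = t k then 1 else 0)
    rw [h1]
    by_cases hj : ∃ k, t k = j
    · obtain ⟨k0, hk0⟩ := hj
      have h2 : ∑ k : Fin 3, (if j = t k then 1 else 0) = 1 := by
        rw [Finset.sum_eq_single k0]
        · rw [if_pos hk0.symm]
        · intro k _ hk
          rw [if_neg]
          intro h
          exact hk (ht (h.symm.trans hk0.symm))
        · intro h
          exact (h (Finset.mem_univ k0)).elim
      rw [h2]
      simp only [peelCol]
      rw [if_pos ⟨k0, hk0⟩]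
      have := hc k0
      rw [hk0] at this
      omega
    · have h2 : ∑ k : Fin 3, (if j = t k then 1 else 0) = 0 := by
        refine Finset.sum_eq_zero fun k _ => ?_
        rw [if_neg]
        intro h
        exact hj ⟨k, h.symm⟩
      rw [h2]
      simp only [peelCol]
      rw [if_neg hj]
      omega

/-- The embedding of the peeled class: add one unit in the cells `(k, t (τ k))`. -/
def triShift {r : Fin 3 → ℕ} {c : Fin n → ℕ} (t : Fin 3 → Fin n)
    (hr : ∀ k, 1 ≤ r k) (ht : Function.Injective t) (hc : ∀ k, 1 ≤ c (t k))
    (τ : Equiv.Perm (Fin 3)) (η : Omega (peelRow r) (peelCol c t)) : Omega r c :=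
  ⟨fun k j => η.1 k j + if j = t (τ k) then 1 else 0, triShift_aux t hr ht hc τ η⟩

/-- The triangle-cover hypothesis (primal TRI-COVER): in every class of `3 x n` tables with all
row sums `≥ 1` and at least three columns with sums `≥ 1` there are three distinct columns
`t 0, t 1, t 2` with sums `≥ 1` such that for every function `f` on the class the defect of `f`
is at least the average over the six permutations `τ` of the defects, on the peeled class, of
`η ↦ f (η + units in the cells (k, t (τ k)))`. -/
def TriCoverHyp : Prop :=
  ∀ (n : ℕ) (r : Fin 3 → ℕ) (c : Fin n → ℕ) (hr : ∀ k, 1 ≤ r k),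
    (∃ t : Fin 3 → Fin n, Function.Injective t ∧ ∀ k, 1 ≤ c (t k)) →
    ∃ (t : Fin 3 → Fin n) (ht : Function.Injective t) (hc : ∀ k, 1 ≤ c (t k)),
      ∀ f : Omega r c → ℝ,
        (1 / 6 : ℝ) * ∑ τ : Equiv.Perm (Fin 3),
            gapDefect (fun η : Omega (peelRow r) (peelCol c t) => f (triShift t hr ht hc τ η))
          ≤ gapDefect f

end Vale.Agent.H23.CT
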