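import Vale.Agent.H23.CT.TriCover
import Vale.Agent.H23.CT.ConeGap

/-!
# P328: the dual (Gram) form of the three-row gap on a class

`dualDefect r c φ` for a triple `φ` of row functions on a class of `3 x n` tables:
`2 ∑ k, SS(φ k (X k)) - SS(∑ k, φ k (X k))`, where `SS g` is the sum of the squared deviations
of `g` from its mean over the class.  On every class, `0 ≤ gapDefect f` for all `f` iff
`0 ≤ dualDefect r c φ` for all triples of row functions (`gapDefect_nonneg_iff_dual`).
-/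

namespace Vale.Agent.H23.CT

open Finset Vale.Agent.H90 Vale.Agent.H88.CT

variable {n : ℕ}

/-- The sum of the squared deviations from the mean. -/
noncomputable def SSq {α : Type*} [Fintype α] (g : α → ℝ) : ℝ :=
  ∑ x, (g x - (∑ y, g y) / (Fintype.card α : ℝ)) ^ 2

/-- The dual defect of a triple of row functions on the class `Omega r c`:
`2 ∑ k, SS(φ k (X k)) - SS(∑ k, φ k (X k))`. -/
noncomputable def dualDefect (r : Fin 3 → ℕ) (c : Fin n → ℕ) (φ : Fin 3 → (Fin n → ℕ) → ℝ) : ℝ :=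
  2 * ∑ k : Fin 3, SSq (fun X : Omega r c => φ k (X.1 k))
    - SSq (fun X : Omega r c => ∑ k : Fin 3, φ k (X.1 k))

section TriDualAux

theorem tridual_SSq_eq {α : Type*} [Fintype α] (g : α → ℝ) :
    SSq g = dot (g - avgAll g) (g - avgAll g) := by
  unfold SSq
  rw [sum_sub_mean_sq, dot_sub_avgAll, dot_avgAll_self]

theorem tridual_avgAll_centre {α : Type*} [Fintype α] (g : α → ℝ) :
    avgAll (g - avgAll g) = 0 := by
  rw [avgAll_sub, avgAll_idem, sub_self]

theorem tridual_avgAll_sum3 {α : Type*} [Fintype α] (G : Fin 3 → α → ℝ) :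
    avgAll (∑ k, G k) = ∑ k, avgAll (G k) := by
  rw [Fin.sum_univ_three, Fin.sum_univ_three, avgAll_add, avgAll_add]

variable {r : Fin 3 → ℕ} {c : Fin n → ℕ}

theorem tridual_rel_equiv (k : Fin 3) :
    Equivalence (fun X Y : Omega r c => X.1 k = Y.1 k) :=
  ⟨fun _ => rfl, fun h => h.symm, fun h1 h2 => h1.trans h2⟩

theorem tridual_primal_of_dual
    (hd : ∀ φ : Fin 3 → (Fin n → ℕ) → ℝ, 0 ≤ dualDefect r c φ)
    (f : Omega r c → ℝ) : 0 ≤ gapDefect f := by
  classical
  have hrel : ∀ k : Fin 3, Equivalence (fun X Y : Omega r c => X.1 k = Y.1 k) :=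
    tridual_rel_equiv
  have hG : ∀ F : Fin 3 → Omega r c → ℝ,
      dot (∑ k, cavg (fun X Y : Omega r c => X.1 k = Y.1 k) (F k))
          (∑ k, cavg (fun X Y : Omega r c => X.1 k = Y.1 k) (F k))
        ≤ 2 * ∑ k, dot (cavg (fun X Y : Omega r c => X.1 k = Y.1 k) (F k))
          (cavg (fun X Y : Omega r c => X.1 k = Y.1 k) (F k)) := by
    intro F
    obtain ⟨φ, hφ⟩ : ∃ φ : Fin 3 → (Fin n → ℕ) → ℝ, φ = fun k y =>
        if h : ∃ X : Omega r c, X.1 k = y then
          avgRel (fun X Y : Omega r c => X.1 k = Y.1 k) (F k) (Classical.choose h) else 0 :=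
      ⟨_, rfl⟩
    have hφX : ∀ k (X : Omega r c), φ k (X.1 k)
        = avgRel (fun X Y : Omega r c => X.1 k = Y.1 k) (F k) X := by
      intro k X
      have h : ∃ X' : Omega r c, X'.1 k = X.1 k := ⟨X, rfl⟩
      rw [hφ]
      simp only
      rw [dif_pos h]
      exact avgRel_of_rel (hrel k) (F k) (Classical.choose_spec h)
    have hg : ∀ k, (fun X : Omega r c => φ k (X.1 k))
        = avgRel (fun X Y : Omega r c => X.1 k = Y.1 k) (F k) := fun k => funext (hφX k)
    have hc : ∀ k, cavg (fun X Y : Omega r c => X.1 k = Y.1 k) (F k)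
        = (fun X : Omega r c => φ k (X.1 k)) - avgAll (fun X : Omega r c => φ k (X.1 k)) := by
      intro k
      rw [hg k, avgAll_avgRel (hrel k)]
      rfl
    have h1 := hd φ
    unfold dualDefect at h1
    have hsum : (∑ k, cavg (fun X Y : Omega r c => X.1 k = Y.1 k) (F k))
        = (fun X : Omega r c => ∑ k : Fin 3, φ k (X.1 k))
          - avgAll (fun X : Omega r c => ∑ k : Fin 3, φ k (X.1 k)) := by
      have e1 : (fun X : Omega r c => ∑ k : Fin 3, φ k (X.1 k))
          = ∑ k : Fin 3, (fun X : Omega r c => φ k (X.1 k)) := by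
        funext X
        rw [Finset.sum_apply]
      rw [e1, tridual_avgAll_sum3, ← Finset.sum_sub_distrib]
      exact Finset.sum_congr rfl (fun k _ => hc k)
    have hT : ∑ k, dot (cavg (fun X Y : Omega r c => X.1 k = Y.1 k) (F k))
          (cavg (fun X Y : Omega r c => X.1 k = Y.1 k) (F k))
        = ∑ k : Fin 3, SSq (fun X : Omega r c => φ k (X.1 k)) :=
      Finset.sum_congr rfl (fun k _ => by rw [hc k, ← tridual_SSq_eq])
    rw [hsum, ← tridual_SSq_eq, hT]
    linarith
  have h2 := gap_of_sum_avgRel_le (fun (k : Fin 3) (X Y : Omega r c) => X.1 k = Y.1 k) hrel f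
    (sum_avgRel_le_of_gram (fun (k : Fin 3) (X Y : Omega r c) => X.1 k = Y.1 k) hrel hG f)
  simp only [Fintype.card_fin] at h2
  have h3 : ((3 : ℕ) : ℝ) - 2 = 1 := by norm_num
  rw [h3, one_mul] at h2
  unfold gapDefect
  linarith

theorem tridual_dual_of_primal (hp : ∀ f : Omega r c → ℝ, 0 ≤ gapDefect f)
    (φ : Fin 3 → (Fin n → ℕ) → ℝ) : 0 ≤ dualDefect r c φ := by
  classical
  have hrel : ∀ k : Fin 3, Equivalence (fun X Y : Omega r c => X.1 k = Y.1 k) :=
    tridual_rel_equiv
  obtain ⟨G, hG⟩ : ∃ G : Fin 3 → Omega r c → ℝ, G = fun k X => φ k (X.1 k) := ⟨_, rfl⟩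
  obtain ⟨Yk, hYk⟩ : ∃ Yk : Fin 3 → Omega r c → ℝ, Yk = fun k => G k - avgAll (G k) := ⟨_, rfl⟩
  obtain ⟨Y, hY⟩ : ∃ Y : Omega r c → ℝ, Y = ∑ k, Yk k := ⟨_, rfl⟩
  have hinvG : ∀ k, avgRel (fun X Y : Omega r c => X.1 k = Y.1 k) (G k) = G k := by
    intro k
    apply avgRel_eq_self (hrel k)
    intro X X' h
    rw [hG]
    simp only
    rw [show X.1 k = X'.1 k from h]
  have hinvY : ∀ k, avgRel (fun X Y : Omega r c => X.1 k = Y.1 k) (Yk k) = Yk k := by
    intro k
    rw [hYk]
    simp only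
    rw [avgRel_sub, hinvG k, avgRel_avgAll (hrel k)]
  have hmean : avgAll Y = 0 := by
    rw [hY, tridual_avgAll_sum3]
    apply Finset.sum_eq_zero
    intro k _
    rw [hYk]
    exact tridual_avgAll_centre (G k)
  -- the primal inequality at `Y`, operator form
  have h1 := hp Y
  unfold gapDefect at h1
  have e1 : ∀ k : Fin 3, ∑ X, (Y X - avgRel (fun X Y : Omega r c => X.1 k = Y.1 k) Y X) ^ 2
      = dot Y Y - dot (avgRel (fun X Y : Omega r c => X.1 k = Y.1 k) Y)
          (avgRel (fun X Y : Omega r c => X.1 k = Y.1 k) Y) :=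
    fun k => dot_sub_avgRel (hrel k) Y
  rw [Finset.sum_congr rfl (fun k _ => e1 k), sum_sub_mean_sq, ← dot_avgAll_self, hmean,
    dot_zero_left, Fin.sum_univ_three] at h1
  -- `dot Y Y` as a sum of cross terms
  have hD : dot Y Y = ∑ k, dot (avgRel (fun X Y : Omega r c => X.1 k = Y.1 k) Y) (Yk k) := by
    have e2 : dot Y Y = dot Y (∑ k, Yk k) := by rw [← hY]
    rw [e2, dot_sum_right]
    refine Finset.sum_congr rfl (fun k _ => ?_)
    rw [← avgRel_dot (hrel k), hinvY k]
  rw [Fin.sum_univ_three] at hD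
  have hsq : ∀ k : Fin 3,
      0 ≤ dot (avgRel (fun X Y : Omega r c => X.1 k = Y.1 k) Y)
            (avgRel (fun X Y : Omega r c => X.1 k = Y.1 k) Y)
          - 4 * dot (avgRel (fun X Y : Omega r c => X.1 k = Y.1 k) Y) (Yk k)
          + 4 * dot (Yk k) (Yk k) := by
    intro k
    have h5 := dot_self_nonneg
      (avgRel (fun X Y : Omega r c => X.1 k = Y.1 k) Y - (2 : ℝ) • Yk k)
    rw [dot_sub_left, dot_sub_right, dot_sub_right, dot_smul_left, dot_smul_right,
      dot_smul_left, dot_smul_right,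
      dot_comm (Yk k) (avgRel (fun X Y : Omega r c => X.1 k = Y.1 k) Y)] at h5
    linarith
  have s0 := hsq 0
  have s1 := hsq 1
  have s2 := hsq 2
  have hfin : dot Y Y ≤ 2 * (dot (Yk 0) (Yk 0) + dot (Yk 1) (Yk 1) + dot (Yk 2) (Yk 2)) := by
    linarith
  -- back to the dual defect
  unfold dualDefect
  have e3 : (fun X : Omega r c => ∑ k : Fin 3, φ k (X.1 k)) = ∑ k, G k := by
    funext X
    rw [Finset.sum_apply, hG]
  have e4 : ∀ k, SSq (fun X : Omega r c => φ k (X.1 k)) = dot (Yk k) (Yk k) := by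
    intro k
    rw [tridual_SSq_eq, hYk, hG]
  have e5 : SSq (∑ k, G k) = dot Y Y := by
    rw [tridual_SSq_eq, hY, tridual_avgAll_sum3, ← Finset.sum_sub_distrib, hYk]
  rw [e3, e5, Finset.sum_congr rfl (fun k _ => e4 k), Fin.sum_univ_three]
  linarith

end TriDualAux

/-- On every class, the primal form (the defect of every function is nonnegative) and the dual
form (the dual defect of every triple of row functions is nonnegative) are equivalent. -/
theorem gapDefect_nonneg_iff_dual (r : Fin 3 → ℕ) (c : Fin n → ℕ) :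
    (∀ f : Omega r c → ℝ, 0 ≤ gapDefect f)
      ↔ ∀ φ : Fin 3 → (Fin n → ℕ) → ℝ, 0 ≤ dualDefect r c φ :=
  ⟨fun hp φ => tridual_dual_of_primal hp φ, fun hd f => tridual_primal_of_dual hd f⟩

end Vale.Agent.H23.CT
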