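import Vale.Agent.H23.CT.TriDual
import Vale.Agent.H23.CT.TriBridge

/-!
# P328: the dual triangle-cover hypothesis and the triangle-peel hypothesis

Dual TRI-COVER: the dual defect of a triple of row functions on a class is at least the average
over the six embeddings of the peeled class of the dual defects of the shifted triples.
TRI-PEEL: the dual defect is at least the dual defect, on the peeled class, of the triple of the
averages of the row functions over the three unit shifts.  Each of them implies `ThreeRowGap`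
by the same induction on the total of the margins as for the primal form.
-/

namespace Vale.Agent.H23.CT

open Finset Vale.Agent.H90 Vale.Agent.H88.CT

/-- Dual TRI-COVER: in every class with all row sums `≥ 1` and three columns with sums `≥ 1`
there are three distinct such columns `t 0, t 1, t 2` with: for every triple `φ` of row
functions, the dual defect of `φ` is at least the average over the six permutations `τ` of the
dual defects, on the peeled class, of the triples `y ↦ φ k (y + e_{t (τ k)})`. -/
def DualTriCoverHyp : Prop :=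
  ∀ (n : ℕ) (r : Fin 3 → ℕ) (c : Fin n → ℕ), (∀ k, 1 ≤ r k) →
    (∃ t : Fin 3 → Fin n, Function.Injective t ∧ ∀ k, 1 ≤ c (t k)) →
    ∃ t : Fin 3 → Fin n, Function.Injective t ∧ (∀ k, 1 ≤ c (t k)) ∧
      ∀ φ : Fin 3 → (Fin n → ℕ) → ℝ,
        (1 / 6 : ℝ) * ∑ τ : Equiv.Perm (Fin 3),
            dualDefect (peelRow r) (peelCol c t)
              (fun k y => φ k (fun j => y j + if j = t (τ k) then 1 else 0))
          ≤ dualDefect r c φ

/-- TRI-PEEL: in every class with all row sums `≥ 1` and three columns with sums `≥ 1` there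
are three distinct such columns `t 0, t 1, t 2` with: for every triple `φ` of row functions,
the dual defect of `φ` is at least the dual defect, on the peeled class, of the triple
`y ↦ (φ k (y + e_{t 0}) + φ k (y + e_{t 1}) + φ k (y + e_{t 2})) / 3`. -/
def TriPeelHyp : Prop :=
  ∀ (n : ℕ) (r : Fin 3 → ℕ) (c : Fin n → ℕ), (∀ k, 1 ≤ r k) →
    (∃ t : Fin 3 → Fin n, Function.Injective t ∧ ∀ k, 1 ≤ c (t k)) →
    ∃ t : Fin 3 → Fin n, Function.Injective t ∧ (∀ k, 1 ≤ c (t k)) ∧
      ∀ φ : Fin 3 → (Fin n → ℕ) → ℝ,
        dualDefect (peelRow r) (peelCol c t)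
            (fun k y => (∑ x : Fin 3, φ k (fun j => y j + if j = t x then 1 else 0)) / 3)
          ≤ dualDefect r c φ

/-- The common induction: if on every class with all row sums `≥ 1` and three nonzero columns
the dual defect of every triple is bounded below by a nonnegative combination of dual defects on
classes of smaller total, then `ThreeRowGap` holds. -/
theorem threeRowGap_of_dual_step
    (step : ∀ (N : ℕ),
      (∀ (n : ℕ) (r : Fin 3 → ℕ) (c : Fin n → ℕ), ∑ k, r k < N →
        ∀ φ : Fin 3 → (Fin n → ℕ) → ℝ, 0 ≤ dualDefect r c φ) →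
      ∀ (n : ℕ) (r : Fin 3 → ℕ) (c : Fin n → ℕ), ∑ k, r k = N → (∀ k, 1 ≤ r k) →
        (∃ t : Fin 3 → Fin n, Function.Injective t ∧ ∀ k, 1 ≤ c (t k)) →
        ∀ φ : Fin 3 → (Fin n → ℕ) → ℝ, 0 ≤ dualDefect r c φ) :
    ThreeRowGap := by
  rw [threeRowGap_iff_gapDefect]
  have key : ∀ (N : ℕ) (n : ℕ) (r : Fin 3 → ℕ) (c : Fin n → ℕ), ∑ k, r k = N →
      ∀ φ : Fin 3 → (Fin n → ℕ) → ℝ, 0 ≤ dualDefect r c φ := by
    intro N
    induction N using Nat.strong_induction_on with
    | _ N ih =>
      intro n r c hN
      by_cases h0 : ∃ k, r k = 0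
      · obtain ⟨k0, hk0⟩ := h0
        exact (gapDefect_nonneg_iff_dual r c).1 (fun f => gapDefect_nonneg_of_row_zero k0 hk0 f)
      · have hr : ∀ k, 1 ≤ r k := by
          intro k
          by_contra hk
          exact h0 ⟨k, by omega⟩
        by_cases h3 : ∃ t : Fin 3 → Fin n, Function.Injective t ∧ ∀ k, 1 ≤ c (t k)
        · exact step N (fun n' r' c' hlt φ => ih _ hlt n' r' c' rfl φ) n r c hN hr h3
        · exact (gapDefect_nonneg_iff_dual r c).1 (fun f => gapDefect_nonneg_of_few_cols h3 f)
  intro n r c
  exact (gapDefect_nonneg_iff_dual r c).2 (key _ n r c rfl)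

theorem sum_peelRow_lt {r : Fin 3 → ℕ} (hr : ∀ k, 1 ≤ r k) : ∑ k, peelRow r k < ∑ k, r k := by
  rw [Fin.sum_univ_three, Fin.sum_univ_three]
  have h0 := hr 0
  have h1 := hr 1
  have h2 := hr 2
  simp only [peelRow]
  omega

/-- Dual TRI-COVER implies the three-row gap hypothesis. -/
theorem threeRowGap_of_dualTriCover (h : DualTriCoverHyp) : ThreeRowGap := by
  refine threeRowGap_of_dual_step fun N ih n r c hN hr h3 φ => ?_
  obtain ⟨t, -, -, hineq⟩ := h n r c hr h3
  have hlt : ∑ k, peelRow r k < N := hN ▸ sum_peelRow_lt hr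
  refine le_trans (mul_nonneg (by norm_num) (Finset.sum_nonneg fun τ _ => ?_)) (hineq φ)
  exact ih n (peelRow r) (peelCol c t) hlt _

/-- TRI-PEEL implies the three-row gap hypothesis. -/
theorem threeRowGap_of_triPeel (h : TriPeelHyp) : ThreeRowGap := by
  refine threeRowGap_of_dual_step fun N ih n r c hN hr h3 φ => ?_
  obtain ⟨t, -, -, hineq⟩ := h n r c hr h3
  have hlt : ∑ k, peelRow r k < N := hN ▸ sum_peelRow_lt hr
  exact le_trans (ih n (peelRow r) (peelCol c t) hlt _) (hineq φ)

end Vale.Agent.H23.CT
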