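import Vale.Agent.H23.CT.TriBridge
import Vale.Agent.H88.CT.Final
import Vale.Agent.H91.CT.Transfer

/-!
# P328: the triangle-cover hypothesis implies polynomial mixing of the `2 x 2` heat-bath chain

`TriCoverHyp` implies `ThreeRowGap` (`threeRowGap_of_triCover`), which implies the explicit
mixing time of the lazy `2 x 2` heat-bath chain on every class of `m x n` contingency tables
(`Vale.Agent.H88.CT.block_mixing_time` with `Vale.Agent.H91.CT.tripleHyp_of_threeRowGap`).
-/

namespace Vale.Agent.H23.CT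

open Finset Vale.Agent.H88.CT

/-- The triangle-cover hypothesis implies the mixing time bound of the lazy `2 x 2` heat-bath
chain for all `m, n ≥ 2` and all margins. -/
theorem block_mixing_time_of_triCover (hyp : TriCoverHyp) (m n : ℕ) (hm : 2 ≤ m) (hn : 2 ≤ n)
    (r : Fin m → ℕ) (c : Fin n → ℕ) (ε : ℝ) (hε : 0 < ε) (t : ℕ)
    (ht : (m : ℝ) * (m - 1) * ((n : ℝ) * (n - 1)) / 2
      * ((m : ℝ) * ∑ j, Real.log ((c j : ℝ) + 1) + 2 * Real.log (1 / ε)) ≤ t)
    (X : Omega r c) :
    (1 / 2 : ℝ) * ∑ Y, |(((1 / 2 : ℝ) • (1 + blockChain r c)) ^ t) X Y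
        - 1 / (Fintype.card (Omega r c) : ℝ)| ≤ ε :=
  block_mixing_time (Vale.Agent.H91.CT.tripleHyp_of_threeRowGap (threeRowGap_of_triCover hyp))
    hm hn r c ε hε t ht X

end Vale.Agent.H23.CT
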